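import Vale.Agent.P336.R2.H100.Leaf
import Vale.Agent.P336.H742.FanIn

/-!
# P336: middle gates reading few wide bottom gates
-/

set_option linter.unusedSectionVars false

namespace Vale.Agent.P336.H100

open Finset Vale.Agent.P336.Expansion Vale.Agent.P336.H742

noncomputable section

/-- The correlation bound for all conjunctions of clauses of which at most `q` have width larger
than `k`. -/
def CorrW {V : Type} [Fintype V] [DecidableEq V] (g : (V → Bool) → ℝ) (k q : ℕ) (δ : ℝ) : Prop :=
  ∀ (C : ℕ → Cl V) (I : Finset ℕ), (I.filter fun i => k < (C i).S.card).card ≤ q →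
    |∑ x, g x * ∏ i ∈ I, ind (C i) x| ≤ δ * 2 ^ Fintype.card V

theorem CorrW.map {V W : Type} [Fintype V] [DecidableEq V] [Fintype W] [DecidableEq W]
    (e : V ≃ W) {g : (V → Bool) → ℝ} {k q : ℕ} {δ : ℝ} (h : CorrW g k q δ) :
    CorrW (fun x : W → Bool => g fun v => x (e v)) k q δ := by
  intro C I hI
  have h1 := h (fun i => Cl.map e (C i)) I (by simpa only [Cl.map, card_map] using hI)
  rw [← Fintype.card_congr e]
  refine le_trans (le_of_eq ?_) h1
  congr 1
  refine Fintype.sum_equiv (Equiv.arrowCongr e.symm (Equiv.refl Bool)) _ _ fun x => ?_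
  have h2 : ((Equiv.arrowCongr e.symm (Equiv.refl Bool)) x : V → Bool) = fun v => x (e v) := by
    funext v
    simp [Equiv.arrowCongr]
  rw [h2]
  congr 1
  refine prod_congr rfl fun i _ => ?_
  unfold ind
  refine if_congr ?_ rfl rfl
  simp only [Cl.map, mem_map_equiv, Equiv.symm_symm]
  exact ⟨fun h3 v hv => h3 _ hv, fun h3 w hw => by
    simpa only [Equiv.apply_symm_apply] using h3 (e.symm w) (by simpa using hw)⟩

theorem CorrW.congr {V : Type} [Fintype V] [DecidableEq V] {g g' : (V → Bool) → ℝ} {k q : ℕ}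
    {δ : ℝ} (h : CorrW g k q δ) (hg : ∀ x, g' x = g x) : CorrW g' k q δ := by
  intro C I hI
  rw [show g' = g from funext hg]
  exact h C I hI

theorem CorrW.neg {V : Type} [Fintype V] [DecidableEq V] {g g' : (V → Bool) → ℝ} {k q : ℕ}
    {δ : ℝ} (h : CorrW g k q δ) (hg : ∀ x, g' x = -g x) : CorrW g' k q δ := by
  intro C I hI
  rw [show g' = fun x => -g x from funext hg]
  simp only [neg_mul, sum_neg_distrib, abs_neg]
  exact h C I hI

/-- The decision tree and its leaves. -/
theorem corrW_tree {W : Type} [Fintype W] [DecidableEq W] {b' k m s q : ℕ} (hb' : 0 < b')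
    {H : (W → Bool) → ℝ} (hH : ∀ z, |H z| ≤ 1) {δ δ' : ℝ} (hδ : 0 ≤ δ)
    (hs : 2 * (Fintype.card W * (2 * b')) ≤ k * s)
    (hc : ∀ (S : Finset W) (c : W → Bool), Sᶜ.card ≤ m →
      Corr (fun y : {w // w ∈ S} × Fin b' → Bool => H (ext S c (yv Expansion.parity y))) k δ)
    (hδ' : δ + (3 / 4) ^ (b' * m) * (q : ℝ) ^ s ≤ δ') :
    CorrW (fun x : W × Fin (2 * b') → Bool => H (yv Expansion.parity x)) k q δ' := by
  classical
  intro C I hI
  have hV : Fintype.card (W × Fin (2 * b')) = Fintype.card W * (2 * b') := by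
    rw [Fintype.card_prod, Fintype.card_fin]
  have h1 := tree (h := fun x : W × Fin (2 * b') → Bool => H (yv Expansion.parity x)) (fun z => hH _) C I
    (k := k) (s := s) (by rw [hV]; exact hs) hδ (b' * m) univ (fun _ => false)
    (fun A _ x hA hW => leaf hb' H C I hc A x (by rwa [compl_eq_univ_sdiff]) fun i hi => by
      by_contra hcon
      have : i ∈ Wd k C I A x := mem_Wd.2 ⟨hi, hcon⟩
      rw [hW] at this
      exact absurd this (notMem_empty _))
  have h2 : Expansion.val (fun x : W × Fin (2 * b') → Bool => H (yv Expansion.parity x)) C univ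
      (fun _ => false) I = ∑ x, H (yv Expansion.parity x) * ∏ i ∈ I, ind (C i) x := by
    unfold Expansion.val
    refine sum_congr ?_ fun _ _ => rfl
    ext z
    rw [mem_cube]
    exact ⟨fun _ => mem_univ _, fun _ v hv => absurd (mem_univ v) hv⟩
  rw [h2, card_univ] at h1
  refine h1.trans ?_
  rw [mul_comm]
  refine mul_le_mul_of_nonneg_right (le_trans ?_ hδ') (by positivity)
  have h3 : (Wd k C I univ fun _ => false).card ≤ q := by
    refine le_trans (card_le_card fun i hi => ?_) hI
    obtain ⟨h4, h5⟩ := mem_Wd.1 hi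
    rw [mem_filter]
    refine ⟨h4, ?_⟩
    by_contra hcon
    exact h5 (Or.inr (by rw [inter_univ]; exact not_lt.1 hcon))
  have h4 : (((Wd k C I univ fun _ => false).card : ℝ)) ≤ q := by exact_mod_cast h3
  gcongr

/-- Global step for circuits whose middle gates read at most `q` bottom gates of fan-in larger
than `k`. -/
theorem middle_of_corrW {n : ℕ} (f : (Fin n → Bool) → Bool) {k q : ℕ} {δ : ℝ} (hδ : δ ≤ 1 / 2)
    (h : CorrW (sgn f) k q δ) (K : Circuit n)
    (hK : ∀ j ∈ K.top, {i | i ∈ K.conj j ∧ k < (clOf (K.lits i)).S.card}.ncard ≤ q)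
    (hf : K.Computes f) : 1 / 4 ≤ K.middle * δ := by
  classical
  set T : ℝ := 2 ^ Fintype.card (Fin n) with hT
  have hN : 0 < T := by positivity
  have h0 := h (fun _ => ⟨∅, fun _ => false⟩) ∅ (by simp)
  have hδ0 : 0 ≤ δ := by
    have h1 := (abs_nonneg _).trans h0
    exact nonneg_of_mul_nonneg_left h1 hN
  -- the set accepted by the middle gate `j`
  let F : Fin K.middle → Finset (Fin n → Bool) := fun j =>
    univ.filter fun x => ∀ i ∈ K.conj j, ∃ l ∈ K.lits i, l.eval x = true
  let P : Fin K.middle → Finset (Fin K.bottom) := fun j =>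
    univ.filter fun i => i ∈ K.conj j ∧ Proper (K.lits i)
  let C : ℕ → Cl (Fin n) := fun i =>
    if hi : i < K.bottom then clOf (K.lits ⟨i, hi⟩) else ⟨∅, fun _ => false⟩
  have hCi : ∀ i : Fin K.bottom, C (i : ℕ) = clOf (K.lits i) := by
    intro i
    simp only [C, dif_pos i.2, Fin.eta]
  have hbad : ∀ j ∈ K.top, ((F j).card : ℝ) ≤ δ * T := by
    intro j hj
    have h1 : ∀ x ∈ F j, sgn f x = 1 := by
      intro x hx
      simp only [F, mem_filter, mem_univ, true_and] at hx
      rw [sgn, if_pos ((hf x).1 ⟨j, hj, hx⟩)]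
    have h2 : ((F j).card : ℝ) = ∑ x ∈ F j, sgn f x := by
      rw [sum_congr rfl h1]
      simp
    have h3 : ∀ x, sgn f x * ∏ i ∈ (P j).map Fin.valEmbedding, ind (C i) x =
        if x ∈ F j then sgn f x else 0 := by
      intro x
      rw [prod_map]
      by_cases hx : x ∈ F j
      · rw [if_pos hx, prod_eq_one, mul_one]
        intro i hi
        simp only [P, mem_filter, mem_univ, true_and] at hi
        simp only [F, mem_filter, mem_univ, true_and] at hx
        rw [Fin.valEmbedding_apply, hCi, ind, if_neg]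
        exact (sat_iff hi.2 x).1 (hx i hi.1)
      · rw [if_neg hx]
        simp only [F, mem_filter, mem_univ, true_and] at hx
        rw [not_forall] at hx
        obtain ⟨i, hi⟩ := hx
        rw [Classical.not_imp] at hi
        obtain ⟨hi1, hi2⟩ := hi
        have hp : Proper (K.lits i) := by
          by_contra hp
          exact hi2 (sat_of_not_proper hp x)
        rw [prod_eq_zero (i := i) (by simp only [P, mem_filter, mem_univ, true_and]; exact ⟨hi1, hp⟩),
          mul_zero]
        rw [Fin.valEmbedding_apply, hCi, ind, if_pos]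
        by_contra hcon
        exact hi2 ((sat_iff hp x).2 hcon)
    have h4 := h C ((P j).map Fin.valEmbedding) (by
      refine le_trans (le_trans (le_of_eq ?_) (Set.ncard_le_ncard (s := ((P j).filter fun i =>
        k < (clOf (K.lits i)).S.card : Set (Fin K.bottom))) ?_ (Set.toFinite _))) (hK j hj)
      · rw [Set.ncard_coe_finset, filter_map, card_map]
        congr 1
        refine filter_congr fun i _ => ?_
        simp only [Function.comp, Fin.valEmbedding_apply, hCi]
      · intro i hi
        simp only [P, coe_filter, mem_filter, mem_univ, true_and, Set.mem_ofPred_eq] at hi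
        exact ⟨hi.1.1, hi.2⟩)
    rw [sum_congr rfl fun x _ => h3 x, ← sum_filter] at h4
    rw [h2]
    refine (le_abs_self _).trans (le_trans (le_of_eq ?_) h4)
    congr 2
    ext x
    simp
  -- the number of accepted points
  have hone : (((univ : Finset (Fin n → Bool)).filter fun x => f x = true).card : ℝ) ≤
      K.middle * (δ * T) := by
    have h1 : (univ.filter fun x => f x = true) ⊆
        (univ.filter fun j => j ∈ K.top).biUnion F := by
      intro x hx
      obtain ⟨j, hj, hx⟩ := (hf x).2 (mem_filter.1 hx).2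
      exact mem_biUnion.2 ⟨j, mem_filter.2 ⟨mem_univ _, hj⟩, mem_filter.2 ⟨mem_univ _, hx⟩⟩
    have h2 : (((univ : Finset (Fin n → Bool)).filter fun x => f x = true).card : ℝ) ≤
        ∑ j with j ∈ K.top, ((F j).card : ℝ) := by
      exact_mod_cast (card_le_card h1).trans card_biUnion_le
    refine h2.trans ((sum_le_sum fun j hj => hbad j (mem_filter.1 hj).2).trans ?_)
    rw [sum_const, nsmul_eq_mul]
    refine mul_le_mul_of_nonneg_right ?_ (by positivity)
    exact_mod_cast (card_le_univ _).trans (by simp)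
  have htwo : (1 - δ) / 2 * T ≤ ((univ : Finset (Fin n → Bool)).filter fun x => f x = true).card := by
    have h1 : ∑ x, sgn f x * ∏ i ∈ (∅ : Finset ℕ),
        ind ((fun _ => (⟨∅, fun _ => false⟩ : Cl (Fin n))) i) x =
        2 * ((univ : Finset (Fin n → Bool)).filter fun x => f x = true).card - T := by
      have h2 : ∀ x, sgn f x = 2 * (if f x = true then 1 else 0) - 1 := by
        intro x
        unfold sgn
        split_ifs <;> norm_num
      simp only [prod_empty, mul_one]
      rw [sum_congr rfl fun x _ => h2 x, sum_sub_distrib, ← mul_sum, sum_boole]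
      simp [hT]
    rw [h1] at h0
    have := (abs_le.1 h0).1
    linarith
  have h8 : (1 - δ) / 2 * T ≤ (K.middle * δ) * T := by
    refine htwo.trans (hone.trans (le_of_eq ?_))
    ring
  have h10 := le_of_mul_le_mul_right h8 hN
  linarith

/-- The bound for circuits computing a slice of the language or of its complement. -/
theorem middle_lang_of_hB {g m b n k q : ℕ} {δ : ℝ} (a : Fin g × Fin m × Fin m → Bool)
    (hn : codeLen g m b ≤ n) (hδ : δ ≤ 1 / 2)
    (h : CorrW (fun x : (Fin g × (Fin m ⊕ Fin m)) × Fin b → Bool =>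
      Moment.hB a (Expansion.yv Expansion.parity x)) k q δ)
    (C : Circuit n)
    (hC : ∀ j ∈ C.top, {i | i ∈ C.conj j ∧ (k : ℕ∞) < (C.lits i).encard}.ncard ≤ q)
    (hcomp : (∀ x, C.Accepts x ↔ slice lang n x = true) ∨
      (∀ x, C.Accepts x ↔ slice lang n x = false)) :
    1 / 4 ≤ C.middle * δ := by
  obtain ⟨N, ⟨e⟩⟩ : ∃ N, Nonempty ((Fin g × (Fin m ⊕ Fin m)) × Fin b ≃ Fin N) :=
    ⟨_, ⟨Fintype.equivFin _⟩⟩
  have h' := h.congr fun x => (hB_eq a (Expansion.yv Expansion.parity x)).symm
  set a' : Fin g → Fin m → Fin m → Bool := fun i j k => a (i, j, k) with ha'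
  obtain ⟨σ, hσ⟩ := exists_sigma a' hn e
  have hsz : (substC σ C).middle = C.middle := rfl
  have hw : ∀ j ∈ (substC σ C).top, {i | i ∈ (substC σ C).conj j ∧
      k < (clOf ((substC σ C).lits i)).S.card}.ncard ≤ q := by
    intro j hj
    refine le_trans (Set.ncard_le_ncard ?_ (Set.toFinite _)) (hC j hj)
    rintro i ⟨h1, h2⟩
    refine ⟨h1, ?_⟩
    by_contra hcon
    have h3 : ((substC σ C).lits i).encard ≤ k :=
      (Set.encard_image_le (Lit.subst σ) (C.lits i)).trans (not_lt.1 hcon)
    exact absurd (card_clOf_le h3) (not_le.2 h2)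
  rw [← hsz]
  rcases hcomp with hcomp | hcomp
  · have h0 : CorrW (sgn (formFn b a')) k q δ := h'.neg fun x => sgn_formFn a' x
    exact middle_of_corrW _ hδ (h0.map e) (substC σ C) hw
      (substC_computes σ C _ (slice lang n) hσ hcomp)
  · have h0 : CorrW (sgn fun x => !formFn b a' x) k q δ := h'.congr fun x => sgn_not_formFn a' x
    refine middle_of_corrW _ hδ (h0.map e) (substC σ C) hw
      (substC_computes σ C (fun x => !formFn b a' fun v => x (e v)) (fun x => !slice lang n x)
        (fun x => by rw [hσ]) fun x => ?_)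
    rw [hcomp]
    change slice lang n x = false ↔ (!slice lang n x) = true
    simp

end

end Vale.Agent.P336.H100
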