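import Vale.Agent.P336.R2.H100.FinM

/-!
# P336: middle fan-in at most `2 ^ (n ^ (1/2 - ε))`
-/

namespace Vale.Agent.P336.H100

open Filter Vale.Agent.P336.H742

/-- Middle fan-in at most `2 ^ (n ^ (1/2 - ε))`: the exponent is at least `c n ^ (1/2 + ε) log n`. -/
theorem eps_of_main {L : Set (List Bool)} {c C₀ : ℝ} (hc : 0 < c)
    (h : ∀ᶠ n : ℕ in atTop, ∀ k : ℕ, C₀ * Real.log n ≤ k →
      (k : ℝ) ≤ c * (Real.sqrt n * Real.log n) → ∀ C : Circuit n,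
        (∀ j ∈ C.top, {i | i ∈ C.conj j ∧ (k : ℕ∞) < (C.lits i).encard}.ncard ≤ 2 ^ k) →
        ((∀ x, C.Accepts x ↔ slice L n x = true) ∨ (∀ x, C.Accepts x ↔ slice L n x = false)) →
        (2 : ℝ) ^ (c * (n * Real.log (k / Real.log n) / k)) ≤ C.middle)
    {ε : ℝ} (h0 : 0 < ε) (h1 : ε < 1 / 2) :
    ∃ c' : ℝ, 0 < c' ∧ ∀ᶠ n : ℕ in atTop, ∀ C : Circuit n,
      (∀ j ∈ C.top, ((C.conj j).ncard : ℝ) ≤ 2 ^ ((n : ℝ) ^ (1 / 2 - ε))) →
      ((∀ x, C.Accepts x ↔ slice L n x = true) ∨ (∀ x, C.Accepts x ↔ slice L n x = false)) →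
      (2 : ℝ) ^ (c' * ((n : ℝ) ^ (1 / 2 + ε) * Real.log n)) ≤ C.middle := by
  set a : ℝ := 1 / 2 - ε with ha
  have ha0 : 0 < a := by rw [ha]; linarith
  have hnat : Tendsto (fun n : ℕ => (n : ℝ)) atTop atTop := tendsto_natCast_atTop_atTop
  have hlog : Tendsto (fun n : ℕ => Real.log n) atTop atTop :=
    Real.tendsto_log_atTop.comp hnat
  have hM : (0 : ℝ) < 1 / (|C₀| + 1) := by positivity
  have hsmall : ∀ᶠ n : ℕ in atTop, ‖Real.log (n : ℝ)‖ ≤ 1 / (|C₀| + 1) * ‖(n : ℝ) ^ a‖ :=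
    hnat.eventually ((isLittleO_log_rpow_atTop ha0).bound hM)
  have hsmall2 : ∀ᶠ n : ℕ in atTop, ‖Real.log (n : ℝ)‖ ≤ 1 * ‖(n : ℝ) ^ (a / 2)‖ :=
    hnat.eventually ((isLittleO_log_rpow_atTop (by positivity : 0 < a / 2)).bound one_pos)
  refine ⟨c * (a / 4), by positivity, ?_⟩
  filter_upwards [h, hsmall, hsmall2, hlog.eventually_ge_atTop (2 / c), hlog.eventually_ge_atTop 1]
    with n h2 h3 h4 h5 h6
  intro C hC hcomp
  have hlog0 : (0 : ℝ) < Real.log n := by linarith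
  have hn0 : 0 < n := by
    rcases Nat.eq_zero_or_pos n with h | h
    · rw [h] at h6
      norm_num at h6
    · exact h
  have hn0' : (0 : ℝ) < n := by exact_mod_cast hn0
  have hn1 : (1 : ℝ) ≤ n := by exact_mod_cast hn0
  have hna : (0 : ℝ) < (n : ℝ) ^ a := by positivity
  have hna1 : (1 : ℝ) ≤ (n : ℝ) ^ a := Real.one_le_rpow hn1 ha0.le
  rw [Real.norm_of_nonneg hlog0.le, Real.norm_of_nonneg hna.le] at h3
  rw [Real.norm_of_nonneg hlog0.le, Real.norm_of_nonneg (by positivity), one_mul] at h4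
  set k : ℕ := ⌈(n : ℝ) ^ a⌉₊ with hk
  have hk1 : (n : ℝ) ^ a ≤ k := Nat.le_ceil _
  have hk2 : (k : ℝ) ≤ 2 * (n : ℝ) ^ a := by
    have := (Nat.ceil_lt_add_one hna.le).le
    linarith
  have hk0 : (0 : ℝ) < k := lt_of_lt_of_le hna hk1
  -- the range of `k`
  have e1 : C₀ * Real.log n ≤ k := by
    have hC1 : (0 : ℝ) < |C₀| + 1 := by positivity
    have e2 : (|C₀| + 1) * Real.log n ≤ (n : ℝ) ^ a := by
      calc (|C₀| + 1) * Real.log n ≤ (|C₀| + 1) * (1 / (|C₀| + 1) * (n : ℝ) ^ a) := by gcongr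
        _ = (n : ℝ) ^ a := by field_simp
    have e3 : C₀ * Real.log n ≤ (|C₀| + 1) * Real.log n := by
      apply mul_le_mul_of_nonneg_right _ hlog0.le
      have := le_abs_self C₀
      linarith
    linarith
  have e2 : (k : ℝ) ≤ c * (Real.sqrt n * Real.log n) := by
    have e3 : (n : ℝ) ^ a ≤ Real.sqrt n := by
      rw [Real.sqrt_eq_rpow]
      exact Real.rpow_le_rpow_of_exponent_le hn1 (by rw [ha]; linarith)
    have e4 : 2 ≤ c * Real.log n := by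
      rw [div_le_iff₀ hc] at h5
      linarith
    calc (k : ℝ) ≤ 2 * (n : ℝ) ^ a := hk2
      _ ≤ 2 * Real.sqrt n := by gcongr
      _ ≤ c * Real.log n * Real.sqrt n := by gcongr
      _ = c * (Real.sqrt n * Real.log n) := by ring
  -- the wide gates
  have e3 : ∀ j ∈ C.top, {i | i ∈ C.conj j ∧ (k : ℕ∞) < (C.lits i).encard}.ncard ≤ 2 ^ k := by
    intro j hj
    have e4 : {i | i ∈ C.conj j ∧ (k : ℕ∞) < (C.lits i).encard}.ncard ≤ (C.conj j).ncard :=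
      Set.ncard_le_ncard (fun i hi => hi.1) (Set.toFinite _)
    have e5 : ((C.conj j).ncard : ℝ) ≤ ((2 ^ k : ℕ) : ℝ) := by
      refine (hC j hj).trans ?_
      push_cast
      rw [← Real.rpow_natCast 2 k]
      exact Real.rpow_le_rpow_of_exponent_le (by norm_num) hk1
    exact e4.trans (by exact_mod_cast e5)
  have e4 := h2 k e1 e2 C e3 hcomp
  refine le_trans (Real.rpow_le_rpow_of_exponent_le (by norm_num) ?_) e4
  -- the exponent
  have e5 : a / 2 * Real.log n ≤ Real.log (k / Real.log n) := by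
    rw [← Real.log_rpow hn0']
    refine Real.log_le_log (by positivity) ?_
    rw [le_div_iff₀ hlog0]
    have e6 : (n : ℝ) ^ a = (n : ℝ) ^ (a / 2) * (n : ℝ) ^ (a / 2) := by
      rw [← Real.rpow_add hn0']
      congr 1
      ring
    calc (n : ℝ) ^ (a / 2) * Real.log n ≤ (n : ℝ) ^ (a / 2) * (n : ℝ) ^ (a / 2) := by gcongr
      _ = (n : ℝ) ^ a := e6.symm
      _ ≤ k := hk1
  have e6 : (n : ℝ) ^ (1 / 2 + ε) * (n : ℝ) ^ a = n := by
    rw [← Real.rpow_add hn0', ha]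
    have : (1 / 2 + ε + (1 / 2 - ε) : ℝ) = 1 := by ring
    rw [this, Real.rpow_one]
  have e7 : (n : ℝ) ^ (1 / 2 + ε) * Real.log n * (a / 4) ≤ n * Real.log (k / Real.log n) / k := by
    rw [le_div_iff₀ hk0]
    have hp : (0 : ℝ) < (n : ℝ) ^ (1 / 2 + ε) := by positivity
    calc (n : ℝ) ^ (1 / 2 + ε) * Real.log n * (a / 4) * k
        ≤ (n : ℝ) ^ (1 / 2 + ε) * Real.log n * (a / 4) * (2 * (n : ℝ) ^ a) := by gcongr
      _ = ((n : ℝ) ^ (1 / 2 + ε) * (n : ℝ) ^ a) * (a / 2 * Real.log n) := by ring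
      _ = n * (a / 2 * Real.log n) := by rw [e6]
      _ ≤ n * Real.log (k / Real.log n) := by gcongr
  calc c * (a / 4) * ((n : ℝ) ^ (1 / 2 + ε) * Real.log n)
      = c * ((n : ℝ) ^ (1 / 2 + ε) * Real.log n * (a / 4)) := by ring
    _ ≤ c * (n * Real.log (k / Real.log n) / k) := by gcongr

end Vale.Agent.P336.H100
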