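import Vale.Agent.P336.H742.NumericsK

/-!
# P336: the parameters for middle gates with few wide inputs
-/

namespace Vale.Agent.P336.H742.NumK

variable {n k : ℕ}

/-- space, with blocks of twice the length -/
theorem space2 (h : Hyp n k) :
    gg n k * (2 * (bb n k * (2 * (2 * bb n k) + 2) + 2) + (bb n k * bb n k * 4 + 2)) ≤ n := by
  have h1 : 18 * (bb n k * bb n k) * gg n k ≤ n := Nat.mul_div_le n (18 * (bb n k * bb n k))
  have h2 := (bb_large h).1
  generalize gg n k = g at *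
  generalize bb n k = b at *
  calc g * (2 * (b * (2 * (2 * b) + 2) + 2) + (b * b * 4 + 2)) = g * (12 * (b * b) + 4 * b + 6) := by
        ring
    _ ≤ g * (18 * (b * b)) := by
        apply Nat.mul_le_mul_left
        nlinarith
    _ = 18 * (b * b) * g := by ring
    _ ≤ n := h1

/-- union bound, with room for the restrictions -/
theorem union16 (h : Hyp n k) :
    16 ^ NN n k * (1 + (1 + 2 * NN n k) ^ tt n k) ^ KK n k < 2 ^ (nm n k * QQ n k) := by
  have h1 := NN_lt h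
  have h2 := nmQQ_ge h
  have h3 := bb_ge h
  have h4 := n_pos h
  have h5 := tt_pos h
  have h6 : 1 ≤ 8 ^ tt n k := Nat.one_le_pow _ _ (by norm_num)
  have h7 : 1 ≤ NN n k := by
    have h8 := h.hg
    have h9 := (bb_large h).1
    unfold NN
    nlinarith
  unfold KK
  generalize NN n k = N at *
  generalize tt n k = t at *
  generalize bb n k = b at *
  generalize Nat.size n = L at *
  generalize nm n k * QQ n k = q at *
  generalize 8 ^ t = e at *
  have h8 : 1 + (1 + 2 * N) ^ t ≤ 2 ^ (L * t + 1) := by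
    have h9 : (1 + 2 * N) ^ t ≤ 2 ^ (L * t) := by
      rw [pow_mul]
      exact Nat.pow_le_pow_left h1 t
    have h10 : 1 ≤ 2 ^ (L * t) := Nat.one_le_two_pow
    rw [pow_succ]
    omega
  calc 16 ^ N * (1 + (1 + 2 * N) ^ t) ^ (N * e) ≤ 2 ^ (4 * N) * (2 ^ (L * t + 1)) ^ (N * e) := by
        have : (16 : ℕ) ^ N = 2 ^ (4 * N) := by rw [pow_mul]; norm_num
        rw [this]
        gcongr
    _ = 2 ^ (4 * N + (L * t + 1) * (N * e)) := by rw [← pow_mul, ← pow_add]
    _ < 2 ^ q := by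
      refine Nat.pow_lt_pow_right (by norm_num) ?_
      have h9 : 1 ≤ L * t := Nat.mul_pos h4 h5
      have h10 : 4 * N + (L * t + 1) * (N * e) ≤ 6 * (N * (e * (L * t))) := by
        have a1 : N * 1 ≤ N * (e * (L * t)) := Nat.mul_le_mul_left _ (Nat.mul_pos h6 h9)
        have a2 : 1 * (N * e) ≤ (L * t) * (N * e) := Nat.mul_le_mul_right _ h9
        have a3 : (L * t + 1) * (N * e) = (L * t) * (N * e) + 1 * (N * e) := by ring
        have a4 : (L * t) * (N * e) = N * (e * (L * t)) := by ring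
        omega
      have h11 : 2 ^ 18 * (N * (e * (L * t))) ≤ N * b := by
        calc 2 ^ 18 * (N * (e * (L * t))) = N * (2 ^ 18 * (e * (L * t))) := by ring
          _ ≤ N * b := Nat.mul_le_mul_left _ h3
      have h12 : 0 < N * (e * (L * t)) := Nat.mul_pos h7 (Nat.mul_pos h6 h9)
      omega

/-- the exponent of the correlation bound -/
theorem expo8 (h : Hyp n k) :
    tt n k * ss n k + (gg n k * nm n k + QQ n k) + gg n k + (nu n k + 6) ≤
      gg n k * bb n k / 8 := by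
  have h0 := (chain_len h).2
  have h1 := (bb_large h).1
  have h2 := (bb_large h).2
  have h3 := h.hg
  generalize tt n k * ss n k = X at *
  revert h0
  unfold nm QQ nu
  intro h0
  have e1 : gg n k * (2 * (bb n k / 128)) * 64 ≤ gg n k * bb n k := by
    calc gg n k * (2 * (bb n k / 128)) * 64 = gg n k * (128 * (bb n k / 128)) := by ring
      _ ≤ gg n k * bb n k := Nat.mul_le_mul_left _ (Nat.mul_div_le _ _)
  have e2 : gg n k * 2 ^ 18 ≤ gg n k * bb n k := Nat.mul_le_mul_left _ h1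
  have e3 : 1 * bb n k ≤ gg n k * bb n k := Nat.mul_le_mul_right _ h3
  generalize gg n k * (2 * (bb n k / 128)) = x1 at *
  generalize gg n k * bb n k = y at *
  generalize gg n k = g at *
  generalize bb n k = b at *
  generalize tt n k = t at *
  omega

/-- the correlation bound at the leaves -/
theorem delta_leaf (h : Hyp n k) :
    2 * (2 ^ (tt n k * ss n k + (gg n k * nm n k + QQ n k) + gg n k) *
      ((7 / 8) ^ (gg n k * bb n k) * (4 / 3) ^ (gg n k * bb n k / 8)) +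
      (2 * th n k ^ KK n k + (1 / 2) ^ (tt n k * ss n k))) ≤ 6 * (1 / 2 : ℝ) ^ (nu n k + 6) := by
  have h1 := expo8 h
  have h4 := (chain_len h).1
  have h5 := nu_le_NN h
  have h6 := th_pow n k
  generalize tt n k * ss n k + (gg n k * nm n k + QQ n k) + gg n k = x at *
  generalize tt n k * ss n k = X at *
  generalize gg n k * bb n k = y at *
  generalize nu n k = ν at *
  have h2 : ((7 : ℝ) / 8) ^ y * (4 / 3) ^ (y / 8) ≤ (1 / 2) ^ (y / 8) := by
    calc ((7 : ℝ) / 8) ^ y * (4 / 3) ^ (y / 8) ≤ (7 / 8) ^ (8 * (y / 8)) * (4 / 3) ^ (y / 8) := by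
          refine mul_le_mul_of_nonneg_right ?_ (by positivity)
          exact pow_le_pow_of_le_one (by norm_num) (by norm_num) (Nat.mul_div_le y 8)
      _ = ((7 / 8) ^ 8 * (4 / 3)) ^ (y / 8) := by rw [pow_mul, mul_pow]
      _ ≤ (1 / 2) ^ (y / 8) := pow_le_pow_left₀ (by norm_num) (by norm_num) _
  have a1 : 2 ^ x * ((7 / 8 : ℝ) ^ y * (4 / 3) ^ (y / 8)) ≤ (1 / 2) ^ (ν + 6) := by
    have e : ((1 : ℝ) / 2) ^ (ν + 6) = 1 / 2 ^ (ν + 6) := by rw [div_pow, one_pow]
    have e' : ((1 : ℝ) / 2) ^ (y / 8) * 2 ^ (y / 8) = 1 := by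
      rw [← mul_pow]
      norm_num
    rw [e, le_div_iff₀ (by positivity)]
    calc (2 : ℝ) ^ x * ((7 / 8) ^ y * (4 / 3) ^ (y / 8)) * 2 ^ (ν + 6) ≤
          2 ^ x * (1 / 2) ^ (y / 8) * 2 ^ (ν + 6) := by gcongr
      _ = (1 / 2) ^ (y / 8) * 2 ^ (x + (ν + 6)) := by
          rw [pow_add _ x]; ring
      _ ≤ (1 / 2) ^ (y / 8) * 2 ^ (y / 8) := by
          gcongr
          norm_num
      _ = 1 := e'
  have a2 : th n k ^ KK n k ≤ (1 / 2) ^ (ν + 7) :=
    h6.trans (pow_le_pow_of_le_one (by norm_num) (by norm_num) h5)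
  have a3 : (1 / 2 : ℝ) ^ X ≤ (1 / 2) ^ (ν + 6) :=
    pow_le_pow_of_le_one (by norm_num) (by norm_num) h4
  have e2 : ((1 : ℝ) / 2) ^ (ν + 7) = 1 / 2 * (1 / 2) ^ (ν + 6) := by
    rw [pow_succ' _ (ν + 6)]
  linarith

/-- the exponent for the decision tree -/
def s2 (n k : ℕ) : ℕ := 2 * (NN n k * (2 * bb n k)) / k + 1

theorem k_pos (h : Hyp n k) : 0 < k :=
  lt_of_lt_of_le (Nat.mul_pos (by positivity) (n_pos h)) (k_ge h.hκ)

theorem s2_ge (h : Hyp n k) : 2 * (NN n k * (2 * bb n k)) ≤ k * s2 n k :=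
  (Nat.lt_mul_div_succ _ (k_pos h)).le

/-- the failure probability of the decision tree -/
theorem tree_exp {k₀ : ℕ} (h : Hyp n (512 * k₀)) :
    k₀ * s2 n (512 * k₀) + nu n (512 * k₀) + 5 ≤
      bb n (512 * k₀) * (gg n (512 * k₀) * bb n (512 * k₀) / 8) / 3 := by
  have h1 := (bb_large h).1
  have h2 := (bb_large h).2
  have h3 := h.hg
  have h4 := bt_ge h
  have h5 := k_pos h
  have e1 : k₀ * s2 n (512 * k₀) * 512 ≤
      8 * (gg n (512 * k₀) * (bb n (512 * k₀) * bb n (512 * k₀))) + 512 * k₀ := by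
    unfold s2 NN
    generalize gg n (512 * k₀) = g at *
    generalize bb n (512 * k₀) = b at *
    calc k₀ * (2 * (2 * (g * b) * (2 * b)) / (512 * k₀) + 1) * 512
        = (512 * k₀) * (2 * (2 * (g * b) * (2 * b)) / (512 * k₀)) + 512 * k₀ := by ring
      _ ≤ 2 * (2 * (g * b) * (2 * b)) + 512 * k₀ :=
          Nat.add_le_add_right (Nat.mul_div_le _ _) _
      _ = 8 * (g * (b * b)) + 512 * k₀ := by ring
  unfold nu
  generalize s2 n (512 * k₀) = s at *
  generalize gg n (512 * k₀) = g at *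
  generalize bb n (512 * k₀) = b at *
  generalize tt n (512 * k₀) = t at *
  -- `k₀` is small
  have e2 : 512 * k₀ * 2 ^ 18 ≤ g * (b * b) := by
    calc 512 * k₀ * 2 ^ 18 ≤ 12 * (512 * k₀) * 2 ^ 18 := by
          apply Nat.mul_le_mul_right
          omega
      _ ≤ b * t * 2 ^ 18 := Nat.mul_le_mul_right _ h4
      _ = b * (2 ^ 18 * t) := by ring
      _ ≤ b * b := Nat.mul_le_mul_left _ h2
      _ ≤ g * (b * b) := Nat.le_mul_of_pos_left _ h3
  have e3 : g * b * 2 ^ 18 ≤ g * (b * b) := by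
    calc g * b * 2 ^ 18 ≤ g * b * b := Nat.mul_le_mul_left _ h1
      _ = g * (b * b) := by ring
  have e4 : g * (b * b) ≤ 8 * (b * (g * b / 8)) + 8 * b := by
    calc g * (b * b) = b * (g * b) := by ring
      _ ≤ b * (8 * (g * b / 8) + 8) := by
          apply Nat.mul_le_mul_left
          omega
      _ = 8 * (b * (g * b / 8)) + 8 * b := by ring
  have e5 : b * 2 ^ 18 ≤ g * (b * b) := by
    calc b * 2 ^ 18 ≤ b * b := Nat.mul_le_mul_left _ h1
      _ ≤ g * (b * b) := Nat.le_mul_of_pos_left _ h3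
  generalize b * (g * b / 8) = D at *
  generalize g * (b * b) = y2 at *
  generalize hgb : g * b = gb at *
  generalize k₀ * s = ks at *
  omega

theorem tree_small {k₀ : ℕ} (h : Hyp n (512 * k₀)) :
    (3 / 4 : ℝ) ^ (bb n (512 * k₀) * (gg n (512 * k₀) * bb n (512 * k₀) / 8)) *
      ((2 ^ k₀ : ℕ) : ℝ) ^ s2 n (512 * k₀) ≤ 2 * (1 / 2) ^ (nu n (512 * k₀) + 6) := by
  have h1 := tree_exp h
  generalize bb n (512 * k₀) * (gg n (512 * k₀) * bb n (512 * k₀) / 8) = D at *
  generalize s2 n (512 * k₀) = s at *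
  generalize nu n (512 * k₀) = ν at *
  push_cast
  rw [← pow_mul]
  have e1 : (3 / 4 : ℝ) ^ D ≤ (1 / 2) ^ (D / 3) := by
    calc (3 / 4 : ℝ) ^ D ≤ (3 / 4) ^ (3 * (D / 3)) :=
          pow_le_pow_of_le_one (by norm_num) (by norm_num) (Nat.mul_div_le D 3)
      _ = ((3 / 4) ^ 3) ^ (D / 3) := by rw [pow_mul]
      _ ≤ (1 / 2) ^ (D / 3) := pow_le_pow_left₀ (by norm_num) (by norm_num) _
  have e2 : (1 / 2 : ℝ) ^ (D / 3) ≤ (1 / 2) ^ (k₀ * s + ν + 5) :=
    pow_le_pow_of_le_one (by norm_num) (by norm_num) h1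
  have e3 : (1 / 2 : ℝ) ^ (k₀ * s) * 2 ^ (k₀ * s) = 1 := by
    rw [← mul_pow]
    norm_num
  calc (3 / 4 : ℝ) ^ D * 2 ^ (k₀ * s) ≤ (1 / 2) ^ (k₀ * s + ν + 5) * 2 ^ (k₀ * s) :=
        mul_le_mul_of_nonneg_right (e1.trans e2) (by positivity)
    _ = ((1 / 2) ^ (k₀ * s) * 2 ^ (k₀ * s)) * (1 / 2) ^ (ν + 5) := by
        rw [add_assoc, pow_add]
        ring
    _ = 2 * (1 / 2) ^ (ν + 6) := by
        rw [e3, pow_succ _ (ν + 5)]
        ring

end Vale.Agent.P336.H742.NumK
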