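import Vale.Agent.P336.R2.H100.Circ
import Vale.Agent.P336.R2.H100.NumM
import Vale.Agent.P336.H742.FinalK

/-!
# P336: the lower bound for middle gates reading few wide bottom gates
-/

namespace Vale.Agent.P336.H100

open Filter Vale.Agent.P336.H742

/-- The lower bound, for one `n` and one `k`. -/
theorem middle_ge {n k : ℕ} (h : NumK.Hyp n (512 * k)) (C : Circuit n)
    (hC : ∀ j ∈ C.top, {i | i ∈ C.conj j ∧ (k : ℕ∞) < (C.lits i).encard}.ncard ≤ 2 ^ k)
    (hcomp : (∀ x, C.Accepts x ↔ slice lang n x = true) ∨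
      (∀ x, C.Accepts x ↔ slice lang n x = false)) :
    2 ^ NumK.nu n (512 * k) ≤ (C.middle : ℝ) := by
  set ν := NumK.nu n (512 * k) with hν
  have hcard : Fintype.card (Fin (NumK.gg n (512 * k)) ×
      (Fin (NumK.bb n (512 * k)) ⊕ Fin (NumK.bb n (512 * k)))) = NumK.NN n (512 * k) := by
    rw [Fintype.card_prod, Fintype.card_sum, Fintype.card_fin, Fintype.card_fin, NumK.NN]
    ring
  obtain ⟨a, ha⟩ := robust (G := Fin (NumK.gg n (512 * k))) (U := Fin (NumK.bb n (512 * k)))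
    (t := NumK.tt n (512 * k)) (K := NumK.KK n (512 * k)) (b := NumK.bb n (512 * k))
    (k := 512 * k) (n := NumK.nm n (512 * k)) (Q := NumK.QQ n (512 * k))
    (s := NumK.ss n (512 * k)) (m := NumK.gg n (512 * k) * NumK.bb n (512 * k) / 8)
    (NumK.tt_pos h) (NumK.bb_pos n _) (NumK.bt_ge h) (even_two_mul _)
    (by rw [hcard]; exact NumK.union16 h) (NumK.th_pos h) (NumK.th_le n _) (NumK.th_eta n _)
    (δ := 6 * (1 / 2) ^ (ν + 6))
    (by rw [Fintype.card_fin, Fintype.card_fin]; exact NumK.delta_leaf h)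
  have hH : ∀ z, |Moment.hB a z| ≤ 1 := by
    intro z
    rw [Moment.hB_eq]
    split_ifs <;> norm_num
  have hpos : (0 : ℝ) < (1 / 2) ^ (ν + 6) := by positivity
  have hW := corrW_tree (W := Fin (NumK.gg n (512 * k)) ×
      (Fin (NumK.bb n (512 * k)) ⊕ Fin (NumK.bb n (512 * k)))) (b' := NumK.bb n (512 * k))
    (k := 512 * k) (m := NumK.gg n (512 * k) * NumK.bb n (512 * k) / 8)
    (s := NumK.s2 n (512 * k)) (q := 2 ^ k) (NumK.bb_pos n _) hH
    (δ := 6 * (1 / 2) ^ (ν + 6)) (δ' := 8 * (1 / 2) ^ (ν + 6)) (by positivity)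
    (by rw [hcard]; exact NumK.s2_ge h) ha (by
      have := NumK.tree_small h
      linarith)
  have hlen : codeLen (NumK.gg n (512 * k)) (NumK.bb n (512 * k)) (2 * NumK.bb n (512 * k)) ≤ n :=
    NumK.space2 h
  have hsmall : ((1 : ℝ) / 2) ^ (ν + 6) ≤ (1 / 2) ^ 6 :=
    pow_le_pow_of_le_one (by norm_num) (by norm_num) (by omega)
  have hδ : 8 * (1 / 2 : ℝ) ^ (ν + 6) ≤ 1 / 2 := by
    have : (8 : ℝ) * (1 / 2) ^ 6 ≤ 1 / 2 := by norm_num
    linarith
  have hC' : ∀ j ∈ C.top, {i | i ∈ C.conj j ∧ ((512 * k : ℕ) : ℕ∞) < (C.lits i).encard}.ncard ≤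
      2 ^ k := by
    intro j hj
    refine le_trans (Set.ncard_le_ncard ?_ (Set.toFinite _)) (hC j hj)
    rintro i ⟨h1, h2⟩
    refine ⟨h1, lt_of_le_of_lt ?_ h2⟩
    exact_mod_cast (by omega : k ≤ 512 * k)
  have h1 := middle_lang_of_hB a hlen hδ hW C hC' hcomp
  have e1 : ((1 : ℝ) / 2) ^ (ν + 6) = 1 / (64 * 2 ^ ν) := by
    rw [div_pow, one_pow, pow_add]
    norm_num
    ring
  rw [e1] at h1
  have e2 : (0 : ℝ) < 2 ^ ν := by positivity
  have e3 : (C.middle : ℝ) * (8 * (1 / (64 * 2 ^ ν))) = C.middle / (8 * 2 ^ ν) := by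
    field_simp
    norm_num
  rw [e3, le_div_iff₀ (by positivity)] at h1
  linarith

/-- The parameters are fine for `C₀ log n ≤ k ≤ c √n log n`. -/
theorem eventually_hyp : ∀ᶠ n : ℕ in atTop, ∀ k : ℕ, (2 : ℝ) ^ 65 * Real.log n ≤ k →
    (k : ℝ) ≤ 1 / 2 ^ 26 * (Real.sqrt n * Real.log n) → NumK.Hyp n (512 * k) := by
  have hnat : Tendsto (fun n : ℕ => (n : ℝ)) atTop atTop := tendsto_natCast_atTop_atTop
  have hlog : Tendsto (fun n : ℕ => Real.log n) atTop atTop :=
    Real.tendsto_log_atTop.comp hnat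
  have hsmall : ∀ᶠ n : ℕ in atTop, ‖Real.log (n : ℝ)‖ ≤ 1 / 65 * ‖(n : ℝ) ^ (1 / 4 : ℝ)‖ :=
    hnat.eventually ((isLittleO_log_rpow_atTop (by norm_num : (0 : ℝ) < 1 / 4)).bound
      (by norm_num : (0 : ℝ) < 1 / 65))
  filter_upwards [hlog.eventually_ge_atTop 4, hsmall] with n h3 h4
  intro k hk hk2
  have hlog0 : (0 : ℝ) < Real.log n := by linarith
  have hn0 : 0 < n := by
    rcases Nat.eq_zero_or_pos n with h | h
    · rw [h] at h3
      norm_num at h3
    · exact h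
  have hn0' : (0 : ℝ) < n := by exact_mod_cast hn0
  have hs1 : 1 ≤ Nat.size n := Nat.size_pos.2 hn0
  have hsz : (Nat.size n : ℝ) ≤ 3 * Real.log n := by
    have h4 : 2 ^ (Nat.size n - 1) ≤ n := Nat.lt_size.1 (by omega)
    have h5 : ((Nat.size n - 1 : ℕ) : ℝ) * Real.log 2 ≤ Real.log n := by
      rw [← Real.log_pow]
      exact Real.log_le_log (by positivity) (by exact_mod_cast h4)
    rw [Nat.cast_sub hs1] at h5
    push_cast at h5
    have h6 : (0.69 : ℝ) ≤ Real.log 2 := by linarith [Real.log_two_gt_d9]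
    have h8 : (0 : ℝ) ≤ Nat.size n - 1 := by
      have : (1 : ℝ) ≤ Nat.size n := by exact_mod_cast hs1
      linarith
    have h9 : ((Nat.size n : ℝ) - 1) * 0.69 ≤ (Nat.size n - 1) * Real.log 2 := by gcongr
    linarith
  have hk0 : (0 : ℝ) ≤ k := Nat.cast_nonneg _
  have hκ : 64 ≤ NumK.kap n (512 * k) := by
    unfold NumK.kap
    refine Nat.lt_size.2 ((Nat.le_div_iff_mul_le hs1).2 ?_)
    have h4 : (2 : ℝ) ^ 63 * Nat.size n ≤ (512 * k : ℕ) := by
      push_cast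
      calc (2 : ℝ) ^ 63 * Nat.size n ≤ 2 ^ 63 * (3 * Real.log n) := by gcongr
        _ ≤ 2 ^ 65 * Real.log n := by nlinarith
        _ ≤ k := hk
        _ ≤ 512 * k := by linarith
    exact_mod_cast h4
  refine ⟨hκ, ?_⟩
  by_contra hcon
  have hg : NumK.gg n (512 * k) = 0 := by omega
  have hb := NumK.bb_le hκ hs1
  have hbpos : 0 < NumK.bb n (512 * k) := NumK.bb_pos n _
  have h1 : n < 18 * (NumK.bb n (512 * k) * NumK.bb n (512 * k)) := by
    unfold NumK.gg at hg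
    rwa [Nat.div_eq_zero_iff_lt (by positivity)] at hg
  have e4 : NumK.kap n (512 * k) ≤ 128 * NumK.tt n (512 * k) := by
    unfold NumK.tt
    omega
  have ht1 : 1 ≤ NumK.tt n (512 * k) := by
    unfold NumK.tt
    omega
  have e6 := NumK.log_le hκ (by linarith)
  have hs : Real.sqrt n ≤ 5 * NumK.bb n (512 * k) := by
    rw [Real.sqrt_le_left (by positivity)]
    have h2 : (n : ℝ) ≤ 18 * (NumK.bb n (512 * k) * NumK.bb n (512 * k)) := by
      exact_mod_cast h1.le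
    nlinarith [sq_nonneg (NumK.bb n (512 * k) : ℝ)]
  have hbt : (NumK.bb n (512 * k) : ℝ) * NumK.tt n (512 * k) ≤ 13 * (512 * k : ℕ) := by
    exact_mod_cast hb
  push_cast at hbt e6
  have ht1' : (1 : ℝ) ≤ NumK.tt n (512 * k) := by exact_mod_cast ht1
  have e4' : (NumK.kap n (512 * k) : ℝ) ≤ 128 * NumK.tt n (512 * k) := by exact_mod_cast e4
  have hsq0 : 0 < Real.sqrt n := Real.sqrt_pos.2 hn0'
  generalize (NumK.bb n (512 * k) : ℝ) = b at *
  generalize (NumK.tt n (512 * k) : ℝ) = t at *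
  have hb0 : 0 < b := by linarith
  -- `t` is small
  have f1 : Real.sqrt n * t ≤ 33280 * k := by nlinarith
  have f2 : t ≤ 33280 / 2 ^ 26 * Real.log n := by
    have f3 : Real.sqrt n * t ≤ Real.sqrt n * (33280 / 2 ^ 26 * Real.log n) := by
      calc Real.sqrt n * t ≤ 33280 * k := f1
        _ ≤ 33280 * (1 / 2 ^ 26 * (Real.sqrt n * Real.log n)) := by gcongr
        _ = Real.sqrt n * (33280 / 2 ^ 26 * Real.log n) := by ring
    exact le_of_mul_le_mul_left f3 hsq0
  -- `k` is large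
  have f4 : Real.sqrt n ≤ 65 * (512 * k) := by nlinarith
  have f5 : (n : ℝ) ^ (1 / 4 : ℝ) ≤ 512 * k / Real.log n := by
    rw [le_div_iff₀ hlog0]
    rw [Real.norm_of_nonneg hlog0.le, Real.norm_of_nonneg (by positivity)] at h4
    have f6 : Real.sqrt n = (n : ℝ) ^ (1 / 4 : ℝ) * (n : ℝ) ^ (1 / 4 : ℝ) := by
      rw [← Real.rpow_add hn0', Real.sqrt_eq_rpow]
      norm_num
    have f7 : (0 : ℝ) < (n : ℝ) ^ (1 / 4 : ℝ) := by positivity
    calc (n : ℝ) ^ (1 / 4 : ℝ) * Real.log n ≤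
          (n : ℝ) ^ (1 / 4 : ℝ) * (1 / 65 * (n : ℝ) ^ (1 / 4 : ℝ)) := by gcongr
      _ = 1 / 65 * Real.sqrt n := by rw [f6]; ring
      _ ≤ 512 * k := by linarith
  have f8 : 1 / 4 * Real.log n ≤ Real.log (512 * k / Real.log n) := by
    rw [← Real.log_rpow hn0']
    exact Real.log_le_log (by positivity) f5
  have f9 : 1 / 4 * Real.log n ≤ 128 * (33280 / 2 ^ 26 * Real.log n) := by
    calc 1 / 4 * Real.log n ≤ Real.log (512 * k / Real.log n) := f8
      _ ≤ NumK.kap n (512 * k) := e6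
      _ ≤ 128 * t := e4'
      _ ≤ _ := by gcongr
  norm_num at f9
  linarith

/-- **Main theorem.** -/
theorem mainM : ∃ L : Set (List Bool), InP L ∧ ∃ c : ℝ, 0 < c ∧ ∃ C₀ : ℝ,
    ∀ᶠ n : ℕ in atTop, ∀ k : ℕ, C₀ * Real.log n ≤ k →
      (k : ℝ) ≤ c * (Real.sqrt n * Real.log n) → ∀ C : Circuit n,
        (∀ j ∈ C.top, {i | i ∈ C.conj j ∧ (k : ℕ∞) < (C.lits i).encard}.ncard ≤ 2 ^ k) →
        ((∀ x, C.Accepts x ↔ slice L n x = true) ∨ (∀ x, C.Accepts x ↔ slice L n x = false)) →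
        (2 : ℝ) ^ (c * (n * Real.log (k / Real.log n) / k)) ≤ C.middle := by
  refine ⟨lang, inP_lang, 1 / 2 ^ 31, by positivity, 2 ^ 65, ?_⟩
  have hlog : Tendsto (fun n : ℕ => Real.log n) atTop atTop :=
    Real.tendsto_log_atTop.comp tendsto_natCast_atTop_atTop
  filter_upwards [eventually_hyp, hlog.eventually_ge_atTop 1] with n h1 h2
  intro k hk hk2 C hC hcomp
  have hlog0 : (0 : ℝ) < Real.log n := by linarith
  have hk0 : (0 : ℝ) < k := lt_of_lt_of_le (by positivity) hk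
  have hyp := h1 k hk (hk2.trans (mul_le_mul_of_nonneg_right
    (by norm_num : (1 : ℝ) / 2 ^ 31 ≤ 1 / 2 ^ 26) (by positivity)))
  refine le_trans ?_ (middle_ge hyp C hC hcomp)
  rw [← Real.rpow_natCast 2 (NumK.nu n (512 * k))]
  refine Real.rpow_le_rpow_of_exponent_le (by norm_num) ?_
  have h5 := NumK.nu_ge hyp h2
  push_cast at h5
  have h6 : Real.log (k / Real.log n) ≤ Real.log (512 * k / Real.log n) := by
    refine Real.log_le_log (by positivity) ?_
    gcongr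
    linarith
  have h7 : (n : ℝ) * Real.log (k / Real.log n) / k ≤
      512 * (n * Real.log (512 * k / Real.log n) / (512 * k)) := by
    have h9 : 512 * ((n : ℝ) * Real.log (512 * k / Real.log n) / (512 * k)) =
        n * Real.log (512 * k / Real.log n) / k := by
      field_simp
    rw [h9]
    gcongr
  have h8 : (0 : ℝ) ≤ NumK.nu n (512 * k) := Nat.cast_nonneg _
  generalize (NumK.nu n (512 * k) : ℝ) = v at *
  calc (1 : ℝ) / 2 ^ 31 * ((n : ℝ) * Real.log (k / Real.log n) / k)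
      ≤ 1 / 2 ^ 31 * (512 * (4000000 * v)) := by
        refine mul_le_mul_of_nonneg_left (h7.trans ?_) (by positivity)
        exact mul_le_mul_of_nonneg_left h5 (by norm_num)
    _ = (1 / 2 ^ 31 * (512 * 4000000)) * v := by ring
    _ ≤ 1 * v := mul_le_mul_of_nonneg_right (by norm_num) h8
    _ = v := one_mul v

end Vale.Agent.P336.H100
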