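import Mathlib

/-!
# P336: the numerical conditions for general parameters

`g` groups of `2 m` blocks of length `2 b`, narrow clauses of width `t`.
-/

namespace Vale.Agent.P336.H100

/-- The hypotheses on the parameters. -/
structure Par (n k g m b t : ℕ) : Prop where
  hn : 1 ≤ n
  hk : 1 ≤ k
  hg : 1 ≤ g
  ht : 1 ≤ t
  hkt : 12 * (512 * k) ≤ b * t
  hm : 2 ^ 18 * (8 ^ t * (Nat.size n * t)) ≤ m
  hmb : m ≤ b
  hsp : 18 * (b * m) * g ≤ n

namespace Par

variable {n k g m b t : ℕ}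

theorem n_pos (h : Par n k g m b t) : 1 ≤ Nat.size n := Nat.size_pos.2 h.hn

theorem m_large (h : Par n k g m b t) : 2 ^ 18 ≤ m ∧ 2 ^ 18 * t ≤ m := by
  have h1 := h.hm
  have h2 := h.n_pos
  have h3 := h.ht
  have h4 : 1 ≤ 8 ^ t := Nat.one_le_pow _ _ (by norm_num)
  have h5 : t ≤ 8 ^ t * (Nat.size n * t) := by
    calc t = 1 * (1 * t) := by ring
      _ ≤ 8 ^ t * (Nat.size n * t) := by gcongr
  constructor
  · calc 2 ^ 18 = 2 ^ 18 * 1 := by ring
      _ ≤ 2 ^ 18 * (8 ^ t * (Nat.size n * t)) := Nat.mul_le_mul_left _ (h3.trans h5)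
      _ ≤ m := h1
  · exact (Nat.mul_le_mul_left _ h5).trans h1

theorem b_pos (h : Par n k g m b t) : 0 < b := by
  have h1 := h.m_large.1
  have h2 := h.hmb
  omega

/-- space -/
theorem space (h : Par n k g m b t) :
    g * (2 * (m * (2 * (2 * b) + 2) + 2) + (m * m * 4 + 2)) ≤ n := by
  have h1 := h.hsp
  have h2 := h.m_large.1
  have h3 := h.hmb
  have h4 : m * m ≤ b * m := Nat.mul_le_mul_right _ h3
  have h5 : 6 * m ≤ b * m := Nat.mul_le_mul_right _ (by omega)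
  calc g * (2 * (m * (2 * (2 * b) + 2) + 2) + (m * m * 4 + 2)) =
        g * (8 * (b * m) + 4 * (m * m) + 4 * m + 6) := by ring
    _ ≤ g * (18 * (b * m)) := by
        apply Nat.mul_le_mul_left
        omega
    _ = 18 * (b * m) * g := by ring
    _ ≤ n := h1

theorem NN_lt (h : Par n k g m b t) : 1 + 2 * (2 * (g * m)) ≤ 2 ^ Nat.size n := by
  have h1 := h.hsp
  have h2 := h.m_large.1
  have h3 := h.hg
  have h4 := h.b_pos
  have h6 : 1 ≤ g * m := Nat.mul_pos h3 (by omega)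
  have h5 : 5 * (g * m) ≤ 18 * (b * m) * g := by
    calc 5 * (g * m) ≤ (18 * b) * (g * m) := Nat.mul_le_mul_right _ (by omega)
      _ = 18 * (b * m) * g := by ring
  have h7 := Nat.lt_size_self n
  omega

/-- the moment times its exponent -/
theorem nmQQ_ge (h : Par n k g m b t) :
    2 * (g * m) * m ≤ 2 ^ 15 * ((2 * (m / 128)) * (g * m / 64)) := by
  have h1 := h.m_large.1
  have h3 := h.hg
  have h4 : m ≤ 256 * (m / 128) := by omega
  have h5 : g * m ≤ 128 * (g * m / 64) := by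
    have : 1 * 2 ^ 18 ≤ g * m := Nat.mul_le_mul h3 h1
    omega
  calc 2 * (g * m) * m ≤ 2 * (128 * (g * m / 64)) * (256 * (m / 128)) := by gcongr
    _ = 2 ^ 15 * (2 * (m / 128) * (g * m / 64)) := by ring

/-- union bound -/
theorem union (h : Par n k g m b t) :
    16 ^ (2 * (g * m)) * (1 + (1 + 2 * (2 * (g * m))) ^ t) ^ (2 * (g * m) * 8 ^ t) <
      2 ^ ((2 * (m / 128)) * (g * m / 64)) := by
  have h1 := h.NN_lt
  have h2 := h.nmQQ_ge
  have h3 := h.hm
  have h4 := h.n_pos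
  have h5 := h.ht
  have h6 : 1 ≤ 8 ^ t := Nat.one_le_pow _ _ (by norm_num)
  have h7 : 1 ≤ 2 * (g * m) := by
    have h8 := h.hg
    have h9 := h.m_large.1
    nlinarith
  generalize 2 * (g * m) = N at *
  generalize Nat.size n = L at *
  generalize (2 * (m / 128)) * (g * m / 64) = q at *
  generalize 8 ^ t = e at *
  have h8 : 1 + (1 + 2 * N) ^ t ≤ 2 ^ (L * t + 1) := by
    have h9 : (1 + 2 * N) ^ t ≤ 2 ^ (L * t) := by
      rw [pow_mul]
      exact Nat.pow_le_pow_left h1 t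
    have h10 : 1 ≤ 2 ^ (L * t) := Nat.one_le_two_pow
    rw [pow_succ]
    omega
  calc 16 ^ N * (1 + (1 + 2 * N) ^ t) ^ (N * e) ≤ 2 ^ (4 * N) * (2 ^ (L * t + 1)) ^ (N * e) := by
        have : (16 : ℕ) ^ N = 2 ^ (4 * N) := by rw [pow_mul]; norm_num
        rw [this]
        gcongr
    _ = 2 ^ (4 * N + (L * t + 1) * (N * e)) := by rw [← pow_mul, ← pow_add]
    _ < 2 ^ q := by
      refine Nat.pow_lt_pow_right (by norm_num) ?_
      have h9 : 1 ≤ L * t := Nat.mul_pos h4 h5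
      have h10 : 4 * N + (L * t + 1) * (N * e) ≤ 6 * (N * (e * (L * t))) := by
        have a1 : N * 1 ≤ N * (e * (L * t)) := Nat.mul_le_mul_left _ (Nat.mul_pos h6 h9)
        have a2 : 1 * (N * e) ≤ (L * t) * (N * e) := Nat.mul_le_mul_right _ h9
        have a3 : (L * t + 1) * (N * e) = (L * t) * (N * e) + 1 * (N * e) := by ring
        have a4 : (L * t) * (N * e) = N * (e * (L * t)) := by ring
        omega
      have h11 : 2 ^ 18 * (N * (e * (L * t))) ≤ N * m := by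
        calc 2 ^ 18 * (N * (e * (L * t))) = N * (2 ^ 18 * (e * (L * t))) := by ring
          _ ≤ N * m := Nat.mul_le_mul_left _ h3
      have h12 : 0 < N * (e * (L * t)) := Nat.mul_pos h7 (Nat.mul_pos h6 h9)
      omega

/-- the length of the chains -/
theorem chain_len (ht : 1 ≤ t) (ν : ℕ) :
    ν + 6 ≤ t * ((ν + 6) / t + 1) ∧ t * ((ν + 6) / t + 1) ≤ ν + 6 + t := by
  have h1 := Nat.lt_mul_div_succ (ν + 6) ht
  have h2 := Nat.mul_div_le (ν + 6) t
  constructor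
  · exact h1.le
  · rw [mul_add, mul_one]
    omega

/-- the exponent of the correlation bound -/
theorem expo8 (h : Par n k g m b t) :
    t * ((g * m / 32 + 6) / t + 1) + (g * (2 * (m / 128)) + g * m / 64) + g + (g * m / 32 + 6) ≤
      g * m / 8 := by
  have h0 := (chain_len h.ht (g * m / 32)).2
  have h1 := h.m_large.1
  have h2 := h.m_large.2
  have h3 := h.hg
  generalize t * ((g * m / 32 + 6) / t + 1) = X at *
  have e1 : g * (2 * (m / 128)) * 64 ≤ g * m := by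
    calc g * (2 * (m / 128)) * 64 = g * (128 * (m / 128)) := by ring
      _ ≤ g * m := Nat.mul_le_mul_left _ (Nat.mul_div_le _ _)
  have e2 : g * 2 ^ 18 ≤ g * m := Nat.mul_le_mul_left _ h1
  have e3 : 1 * m ≤ g * m := Nat.mul_le_mul_right _ h3
  generalize g * (2 * (m / 128)) = x1 at *
  generalize g * m = y at *
  omega

theorem th_pos (ht : 1 ≤ t) : (0 : ℝ) < 1 - 1 / 8 ^ t := by
  have h1 : (1 : ℝ) < 8 ^ t := one_lt_pow₀ (by norm_num) (by omega)
  have h2 : (1 : ℝ) / 8 ^ t < 1 := by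
    rw [div_lt_one (by positivity)]
    exact h1
  linarith

theorem th_le (t : ℕ) : (1 : ℝ) - 1 / 8 ^ t ≤ 1 := by
  have h1 : (0 : ℝ) ≤ 1 / 8 ^ t := by positivity
  linarith

theorem th_eta (t : ℕ) : (1 - (1 - 1 / 8 ^ t)) * (3 : ℝ) ^ t ≤ (1 / 2) ^ t := by
  have h1 : (1 - (1 - 1 / 8 ^ t)) * (3 : ℝ) ^ t = (3 / 8) ^ t := by
    rw [div_pow]
    ring
  rw [h1]
  exact pow_le_pow_left₀ (by norm_num) (by norm_num) _

theorem th_pow (t N : ℕ) : ((1 : ℝ) - 1 / 8 ^ t) ^ (N * 8 ^ t) ≤ (1 / 2) ^ N := by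
  have h1 : (1 : ℝ) - 1 / 8 ^ t ≤ Real.exp (-(1 / 8 ^ t)) := by
    have := Real.add_one_le_exp (-(1 / (8 : ℝ) ^ t))
    linarith
  have h0 : (0 : ℝ) ≤ 1 - 1 / 8 ^ t := by
    have h2 : (1 : ℝ) / 8 ^ t ≤ 1 := by
      rw [div_le_one (by positivity)]
      exact one_le_pow₀ (by norm_num)
    linarith
  have h8 : (8 : ℝ) ^ t ≠ 0 := by positivity
  calc ((1 : ℝ) - 1 / 8 ^ t) ^ (N * 8 ^ t) ≤ Real.exp (-(1 / 8 ^ t)) ^ (N * 8 ^ t) :=
        pow_le_pow_left₀ h0 h1 _
    _ = Real.exp (-1) ^ N := by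
        rw [← Real.exp_nat_mul, ← Real.exp_nat_mul]
        congr 1
        push_cast
        field_simp
    _ ≤ (1 / 2) ^ N := by
        refine pow_le_pow_left₀ (Real.exp_pos _).le ?_ _
        rw [Real.exp_neg, ← one_div]
        exact one_div_le_one_div_of_le (by norm_num) (by
          have := Real.add_one_le_exp (1 : ℝ)
          linarith)

/-- the correlation bound at the leaves -/
theorem delta_leaf (h : Par n k g m b t) :
    2 * (2 ^ (t * ((g * m / 32 + 6) / t + 1) + (g * (2 * (m / 128)) + g * m / 64) + g) *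
      ((7 / 8) ^ (g * m) * (4 / 3) ^ (g * m / 8)) +
      (2 * (1 - 1 / 8 ^ t) ^ (2 * (g * m) * 8 ^ t) +
        (1 / 2) ^ (t * ((g * m / 32 + 6) / t + 1)))) ≤ 6 * (1 / 2 : ℝ) ^ (g * m / 32 + 6) := by
  have h1 := h.expo8
  have h4 := (chain_len h.ht (g * m / 32)).1
  have h5 : g * m / 32 + 7 ≤ 2 * (g * m) := by
    have h6 := h.m_large.1
    have h7 := h.hg
    have e3 : 1 * m ≤ g * m := Nat.mul_le_mul_right _ h7
    omega
  have h6 := th_pow t (2 * (g * m))
  generalize t * ((g * m / 32 + 6) / t + 1) = X at *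
  generalize X + (g * (2 * (m / 128)) + g * m / 64) + g = x at *
  generalize ((1 : ℝ) - 1 / 8 ^ t) ^ (2 * (g * m) * 8 ^ t) = T at *
  generalize g * m = y at *
  generalize y / 32 = ν at *
  have h2 : ((7 : ℝ) / 8) ^ y * (4 / 3) ^ (y / 8) ≤ (1 / 2) ^ (y / 8) := by
    calc ((7 : ℝ) / 8) ^ y * (4 / 3) ^ (y / 8) ≤ (7 / 8) ^ (8 * (y / 8)) * (4 / 3) ^ (y / 8) := by
          refine mul_le_mul_of_nonneg_right ?_ (by positivity)
          exact pow_le_pow_of_le_one (by norm_num) (by norm_num) (Nat.mul_div_le y 8)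
      _ = ((7 / 8) ^ 8 * (4 / 3)) ^ (y / 8) := by rw [pow_mul, mul_pow]
      _ ≤ (1 / 2) ^ (y / 8) := pow_le_pow_left₀ (by norm_num) (by norm_num) _
  have a1 : 2 ^ x * ((7 / 8 : ℝ) ^ y * (4 / 3) ^ (y / 8)) ≤ (1 / 2) ^ (ν + 6) := by
    have e : ((1 : ℝ) / 2) ^ (ν + 6) = 1 / 2 ^ (ν + 6) := by rw [div_pow, one_pow]
    have e' : ((1 : ℝ) / 2) ^ (y / 8) * 2 ^ (y / 8) = 1 := by
      rw [← mul_pow]
      norm_num
    rw [e, le_div_iff₀ (by positivity)]
    calc (2 : ℝ) ^ x * ((7 / 8) ^ y * (4 / 3) ^ (y / 8)) * 2 ^ (ν + 6) ≤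
          2 ^ x * (1 / 2) ^ (y / 8) * 2 ^ (ν + 6) := by gcongr
      _ = (1 / 2) ^ (y / 8) * 2 ^ (x + (ν + 6)) := by
          rw [pow_add _ x]; ring
      _ ≤ (1 / 2) ^ (y / 8) * 2 ^ (y / 8) := by
          gcongr
          norm_num
      _ = 1 := e'
  have a2 : T ≤ (1 / 2) ^ (ν + 7) :=
    h6.trans (pow_le_pow_of_le_one (by norm_num) (by norm_num) h5)
  have a3 : (1 / 2 : ℝ) ^ X ≤ (1 / 2) ^ (ν + 6) :=
    pow_le_pow_of_le_one (by norm_num) (by norm_num) h4
  have e2 : ((1 : ℝ) / 2) ^ (ν + 7) = 1 / 2 * (1 / 2) ^ (ν + 6) := by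
    rw [pow_succ' _ (ν + 6)]
  linarith

/-- the exponent for the decision tree -/
def s2 (k g m b : ℕ) : ℕ := 2 * (2 * (g * m) * (2 * b)) / (512 * k) + 1

theorem s2_ge (h : Par n k g m b t) : 2 * (2 * (g * m) * (2 * b)) ≤ 512 * k * s2 k g m b :=
  (Nat.lt_mul_div_succ _ (by have := h.hk; omega)).le

/-- the failure probability of the decision tree -/
theorem tree_exp (h : Par n k g m b t) :
    k * s2 k g m b + g * m / 32 + 5 ≤ b * (g * m / 8) / 3 := by
  have h1 := h.m_large.1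
  have h2 := h.m_large.2
  have h3 := h.hg
  have h4 := h.hkt
  have h5 := h.hk
  have h6 := h.hmb
  have e1 : k * s2 k g m b * 512 ≤ 8 * (g * (b * m)) + 512 * k := by
    unfold s2
    calc k * (2 * (2 * (g * m) * (2 * b)) / (512 * k) + 1) * 512
        = (512 * k) * (2 * (2 * (g * m) * (2 * b)) / (512 * k)) + 512 * k := by ring
      _ ≤ 2 * (2 * (g * m) * (2 * b)) + 512 * k :=
          Nat.add_le_add_right (Nat.mul_div_le _ _) _
      _ = 8 * (g * (b * m)) + 512 * k := by ring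
  generalize s2 k g m b = s at *
  -- `k` is small
  have e2 : 512 * k * 2 ^ 18 ≤ g * (b * m) := by
    calc 512 * k * 2 ^ 18 ≤ 12 * (512 * k) * 2 ^ 18 := by
          apply Nat.mul_le_mul_right
          omega
      _ ≤ b * t * 2 ^ 18 := Nat.mul_le_mul_right _ h4
      _ = b * (2 ^ 18 * t) := by ring
      _ ≤ b * m := Nat.mul_le_mul_left _ h2
      _ ≤ g * (b * m) := Nat.le_mul_of_pos_left _ h3
  have e3 : g * m * 2 ^ 18 ≤ g * (b * m) := by
    calc g * m * 2 ^ 18 ≤ g * m * b := Nat.mul_le_mul_left _ (h1.trans h6)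
      _ = g * (b * m) := by ring
  have e4 : g * (b * m) ≤ 8 * (b * (g * m / 8)) + 8 * b := by
    calc g * (b * m) = b * (g * m) := by ring
      _ ≤ b * (8 * (g * m / 8) + 8) := by
          apply Nat.mul_le_mul_left
          omega
      _ = 8 * (b * (g * m / 8)) + 8 * b := by ring
  have e5 : b * 2 ^ 18 ≤ g * (b * m) := by
    calc b * 2 ^ 18 ≤ b * m := Nat.mul_le_mul_left _ h1
      _ ≤ g * (b * m) := Nat.le_mul_of_pos_left _ h3
  generalize b * (g * m / 8) = D at *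
  generalize g * (b * m) = y2 at *
  generalize g * m = gb at *
  generalize k * s = ks at *
  omega

theorem tree_small (h : Par n k g m b t) :
    (3 / 4 : ℝ) ^ (b * (g * m / 8)) * ((2 ^ k : ℕ) : ℝ) ^ s2 k g m b ≤
      2 * (1 / 2) ^ (g * m / 32 + 6) := by
  have h1 := h.tree_exp
  generalize b * (g * m / 8) = D at *
  generalize s2 k g m b = s at *
  generalize g * m / 32 = ν at *
  push_cast
  rw [← pow_mul]
  have e1 : (3 / 4 : ℝ) ^ D ≤ (1 / 2) ^ (D / 3) := by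
    calc (3 / 4 : ℝ) ^ D ≤ (3 / 4) ^ (3 * (D / 3)) :=
          pow_le_pow_of_le_one (by norm_num) (by norm_num) (Nat.mul_div_le D 3)
      _ = ((3 / 4) ^ 3) ^ (D / 3) := by rw [pow_mul]
      _ ≤ (1 / 2) ^ (D / 3) := pow_le_pow_left₀ (by norm_num) (by norm_num) _
  have e2 : (1 / 2 : ℝ) ^ (D / 3) ≤ (1 / 2) ^ (k * s + ν + 5) :=
    pow_le_pow_of_le_one (by norm_num) (by norm_num) h1
  have e3 : (1 / 2 : ℝ) ^ (k * s) * 2 ^ (k * s) = 1 := by
    rw [← mul_pow]
    norm_num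
  calc (3 / 4 : ℝ) ^ D * 2 ^ (k * s) ≤ (1 / 2) ^ (k * s + ν + 5) * 2 ^ (k * s) :=
        mul_le_mul_of_nonneg_right (e1.trans e2) (by positivity)
    _ = ((1 / 2) ^ (k * s) * 2 ^ (k * s)) * (1 / 2) ^ (ν + 5) := by
        rw [add_assoc, pow_add]
        ring
    _ = 2 * (1 / 2) ^ (ν + 6) := by
        rw [e3, pow_succ _ (ν + 5)]
        ring

end Par

end Vale.Agent.P336.H100
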