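import Vale.Agent.P336.R2.H100.Circ
import Vale.Agent.P336.R2.H100.GenNum

/-!
# P336: the lower bound for the middle gates, general parameters
-/

namespace Vale.Agent.P336.H100

open Filter Vale.Agent.P336.H742

/-- The lower bound, for given parameters. -/
theorem middle_ge_gen {n k g m b t : ℕ} (h : Par n k g m b t) (C : Circuit n)
    (hC : ∀ j ∈ C.top, {i | i ∈ C.conj j ∧ (k : ℕ∞) < (C.lits i).encard}.ncard ≤ 2 ^ k)
    (hcomp : (∀ x, C.Accepts x ↔ slice lang n x = true) ∨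
      (∀ x, C.Accepts x ↔ slice lang n x = false)) :
    2 ^ (g * m / 32) ≤ (C.middle : ℝ) := by
  set ν := g * m / 32 with hν
  have hcard : Fintype.card (Fin g × (Fin m ⊕ Fin m)) = 2 * (g * m) := by
    rw [Fintype.card_prod, Fintype.card_sum, Fintype.card_fin, Fintype.card_fin]
    ring
  obtain ⟨a, ha⟩ := robust (G := Fin g) (U := Fin m)
    (t := t) (K := 2 * (g * m) * 8 ^ t) (b := b)
    (k := 512 * k) (n := 2 * (m / 128)) (Q := g * m / 64)
    (s := (g * m / 32 + 6) / t + 1) (m := g * m / 8)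
    h.ht h.b_pos h.hkt (even_two_mul _)
    (by rw [hcard]; exact h.union) (Par.th_pos h.ht) (Par.th_le t) (Par.th_eta t)
    (δ := 6 * (1 / 2) ^ (ν + 6))
    (by rw [Fintype.card_fin, Fintype.card_fin]; exact h.delta_leaf)
  have hH : ∀ z, |Moment.hB a z| ≤ 1 := by
    intro z
    rw [Moment.hB_eq]
    split_ifs <;> norm_num
  have hpos : (0 : ℝ) < (1 / 2) ^ (ν + 6) := by positivity
  have hW := corrW_tree (W := Fin g × (Fin m ⊕ Fin m)) (b' := b)
    (k := 512 * k) (m := g * m / 8)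
    (s := Par.s2 k g m b) (q := 2 ^ k) h.b_pos hH
    (δ := 6 * (1 / 2) ^ (ν + 6)) (δ' := 8 * (1 / 2) ^ (ν + 6)) (by positivity)
    (by rw [hcard]; exact h.s2_ge) ha (by
      have := h.tree_small
      linarith)
  have hlen : codeLen g m (2 * b) ≤ n := h.space
  have hsmall : ((1 : ℝ) / 2) ^ (ν + 6) ≤ (1 / 2) ^ 6 :=
    pow_le_pow_of_le_one (by norm_num) (by norm_num) (by omega)
  have hδ : 8 * (1 / 2 : ℝ) ^ (ν + 6) ≤ 1 / 2 := by
    have : (8 : ℝ) * (1 / 2) ^ 6 ≤ 1 / 2 := by norm_num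
    linarith
  have hC' : ∀ j ∈ C.top, {i | i ∈ C.conj j ∧ ((512 * k : ℕ) : ℕ∞) < (C.lits i).encard}.ncard ≤
      2 ^ k := by
    intro j hj
    refine le_trans (Set.ncard_le_ncard ?_ (Set.toFinite _)) (hC j hj)
    rintro i ⟨h1, h2⟩
    refine ⟨h1, lt_of_le_of_lt ?_ h2⟩
    exact_mod_cast (by omega : k ≤ 512 * k)
  have h1 := middle_lang_of_hB a hlen hδ hW C hC' hcomp
  have e1 : ((1 : ℝ) / 2) ^ (ν + 6) = 1 / (64 * 2 ^ ν) := by
    rw [div_pow, one_pow, pow_add]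
    norm_num
    ring
  rw [e1] at h1
  have e2 : (0 : ℝ) < 2 ^ ν := by positivity
  have e3 : (C.middle : ℝ) * (8 * (1 / (64 * 2 ^ ν))) = C.middle / (8 * 2 ^ ν) := by
    field_simp
    norm_num
  rw [e3, le_div_iff₀ (by positivity)] at h1
  linarith

/-- The hypothesis on the wide gates is monotone in `k`. -/
theorem few_mono {n k K : ℕ} (hk : k ≤ K) (C : Circuit n) {j : Fin C.middle}
    (h : {i | i ∈ C.conj j ∧ (k : ℕ∞) < (C.lits i).encard}.ncard ≤ 2 ^ k) :
    {i | i ∈ C.conj j ∧ (K : ℕ∞) < (C.lits i).encard}.ncard ≤ 2 ^ K := by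
  refine le_trans (Set.ncard_le_ncard ?_ (Set.toFinite _))
    (h.trans (Nat.pow_le_pow_right (by norm_num) hk))
  rintro i ⟨h1, h2⟩
  exact ⟨h1, lt_of_le_of_lt (by exact_mod_cast hk) h2⟩

end Vale.Agent.P336.H100
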