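import Mathlib

/-!
# P336: parameters with one group
-/

namespace Vale.Agent.P336.H795

open Filter

/-- size and logarithm -/
theorem size_log {n : ℕ} (h3 : 4 ≤ Real.log n) :
    1 ≤ Nat.size n ∧ Real.log n ≤ Nat.size n ∧ (Nat.size n : ℝ) ≤ 3 * Real.log n ∧
      (Nat.size n : ℝ) * Real.log 2 ≤ Real.log n + Real.log 2 := by
  have hn0 : 0 < n := by
    rcases Nat.eq_zero_or_pos n with h | h
    · rw [h] at h3
      norm_num at h3
    · exact h
  have hs1 : 1 ≤ Nat.size n := Nat.size_pos.2 hn0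
  have h4 : 2 ^ (Nat.size n - 1) ≤ n := Nat.lt_size.1 (by omega)
  have h5 : ((Nat.size n - 1 : ℕ) : ℝ) * Real.log 2 ≤ Real.log n := by
    rw [← Real.log_pow]
    exact Real.log_le_log (by positivity) (by exact_mod_cast h4)
  rw [Nat.cast_sub hs1] at h5
  push_cast at h5
  have h6 : (0.69 : ℝ) ≤ Real.log 2 := by linarith [Real.log_two_gt_d9]
  have h7 : Real.log 2 ≤ 1 := by linarith [Real.log_two_lt_d9]
  have h8 : (0 : ℝ) ≤ Nat.size n - 1 := by
    have : (1 : ℝ) ≤ Nat.size n := by exact_mod_cast hs1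
    linarith
  have h9 : ((Nat.size n : ℝ) - 1) * 0.69 ≤ (Nat.size n - 1) * Real.log 2 := by gcongr
  have h10 : Real.log n ≤ Nat.size n * Real.log 2 := by
    rw [← Real.log_pow]
    have : n < 2 ^ Nat.size n := Nat.lt_size_self n
    exact Real.log_le_log (by exact_mod_cast hn0) (by exact_mod_cast this.le)
  refine ⟨hs1, ?_, by linarith, by linarith⟩
  have : (Nat.size n : ℝ) * Real.log 2 ≤ Nat.size n * 1 := by gcongr
  linarith

/-- the power `8 ^ t` -/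
theorem pow_eight {x δ r L : ℝ} {t : ℕ} (hx : 0 < x) (h0 : 0 < δ) (h1 : δ < 1 / 2)
    (hr : 0 < r) (hδr : 1 / r ≤ δ / 8) (htR : (t : ℝ) * r ≤ L)
    (hL0 : 0 ≤ L) (hL2 : L * Real.log 2 ≤ Real.log x + Real.log 2) :
    (8 : ℝ) ^ t ≤ 2 * x ^ (3 * δ / 8) := by
  have e1 : (8 : ℝ) ^ t = Real.exp (t * (3 * Real.log 2)) := by
    have h8 : (3 : ℝ) * Real.log 2 = Real.log 8 := by
      rw [show (8 : ℝ) = 2 ^ (3 : ℕ) by norm_num, Real.log_pow]; norm_num
    rw [h8, mul_comm, Real.exp_mul, Real.exp_log (by norm_num), Real.rpow_natCast]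
  have hl2 : 0 < Real.log 2 := Real.log_pos (by norm_num)
  have e2 : (t : ℝ) ≤ L * (δ / 8) := by
    have h : (t : ℝ) ≤ L * (1 / r) := by
      rw [mul_one_div, le_div_iff₀ hr]; exact htR
    exact h.trans (mul_le_mul_of_nonneg_left hδr hL0)
  have e3 : (t : ℝ) * (3 * Real.log 2) ≤ Real.log x * (3 * δ / 8) + Real.log 2 := by
    have f1 : (t : ℝ) * (3 * Real.log 2) ≤ L * (δ / 8) * (3 * Real.log 2) :=
      mul_le_mul_of_nonneg_right e2 (by positivity)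
    have f2 : L * Real.log 2 * (3 * δ / 8) ≤ (Real.log x + Real.log 2) * (3 * δ / 8) :=
      mul_le_mul_of_nonneg_right hL2 (by positivity)
    have f3 : Real.log 2 * (3 * δ / 8) ≤ Real.log 2 * 1 :=
      mul_le_mul_of_nonneg_left (by linarith) hl2.le
    linarith
  rw [e1]
  refine (Real.exp_le_exp.2 e3).trans (le_of_eq ?_)
  rw [Real.exp_add, Real.exp_log (by norm_num), ← Real.rpow_def_of_pos hx]
  ring

/-- numerical bounds -/
theorem num_bd {X Y m : ℝ} (hY : 1099511627776 ≤ Y) (hX : Y * Y / 221184 ≤ X)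
    (hm : X - 1 ≤ m) : 4718592 * Y ≤ m ∧ 64 ≤ X := by
  have e1 : (1099511627776 : ℝ) * Y ≤ Y * Y := mul_le_mul_of_nonneg_right hY (by linarith)
  have e2 : Y * Y ≤ X * 221184 := (div_le_iff₀ (by norm_num)).1 hX
  constructor <;> linarith

/-- the block length `b = ⌊a / t⌋ + 1` -/
theorem block {n k t : ℕ} (hn0 : 0 < n) (ht1 : 1 ≤ t) (ht3 : (t : ℝ) ≤ Real.log n)
    (h4 : 4 ≤ Real.log n) (hk1 : Real.sqrt n * Real.log n ≤ k) :
    ∃ b : ℕ, 0 < b ∧ 12 * (512 * k) ≤ b * t ∧ n ≤ b * b ∧ (b : ℝ) * t ≤ 12288 * k := by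
  have hnR : (0 : ℝ) < n := by exact_mod_cast hn0
  have hsq : 0 < Real.sqrt n := Real.sqrt_pos.2 hnR
  have hsqn : Real.sqrt n * Real.sqrt n = n := Real.mul_self_sqrt hnR.le
  have hkR : (0 : ℝ) < k := lt_of_lt_of_le (mul_pos hsq (by linarith)) hk1
  have hb1 : 12 * (512 * k) ≤ (12 * (512 * k) / t + 1) * t :=
    le_of_le_of_eq (Nat.lt_mul_div_succ _ ht1).le (mul_comm _ _)
  refine ⟨12 * (512 * k) / t + 1, Nat.succ_pos _, hb1, ?_, ?_⟩
  · generalize 12 * (512 * k) / t + 1 = b at hb1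
    have hb1R : 6144 * (k : ℝ) ≤ b * t := by
      have : ((12 * (512 * k) : ℕ) : ℝ) ≤ ((b * t : ℕ) : ℝ) := by exact_mod_cast hb1
      push_cast at this
      linarith
    have hb0 : (0 : ℝ) ≤ b := Nat.cast_nonneg b
    have hbs : Real.sqrt n ≤ b := by
      have e2 : (b : ℝ) * t ≤ b * Real.log n := mul_le_mul_of_nonneg_left ht3 hb0
      have e3 : (6144 * Real.sqrt n) * Real.log n ≤ b * Real.log n := by linarith
      have e4 := le_of_mul_le_mul_right e3 (by linarith)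
      linarith
    have : (n : ℝ) ≤ b * b := by
      rw [← hsqn]
      exact mul_le_mul hbs hbs hsq.le hb0
    exact_mod_cast this
  · have hk1' : Real.log n ≤ k := by
      have h1 : (1 : ℝ) ≤ Real.sqrt n := by
        rw [Real.one_le_sqrt]; exact_mod_cast hn0
      have h2 : (1 : ℝ) * Real.log n ≤ Real.sqrt n * Real.log n :=
        mul_le_mul_of_nonneg_right h1 (by linarith)
      linarith
    have e1 : (12 * (512 * k) / t + 1) * t ≤ 12 * (512 * k) + t := by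
      have h := Nat.div_mul_le_self (12 * (512 * k)) t
      rw [Nat.add_mul, one_mul]
      exact Nat.add_le_add_right h t
    generalize 12 * (512 * k) / t + 1 = b at e1
    have e2 : ((b * t : ℕ) : ℝ) ≤ ((12 * (512 * k) + t : ℕ) : ℝ) := by exact_mod_cast e1
    push_cast at e2
    linarith

/-- the number of blocks -/
theorem blocks {n k t b : ℕ} {δ : ℝ} (hn0 : 0 < n) (hk0 : 0 < k) (hb0 : 0 < b) (ht1 : 1 ≤ t)
    (hnb : n ≤ b * b) (hbt : (b : ℝ) * t ≤ 12288 * k) (hk2 : (k : ℝ) ≤ (n : ℝ) ^ (1 - δ)) :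
    ∃ m : ℕ, m ≤ b ∧ 18 * (b * m) ≤ n ∧ (n : ℝ) * t / (221184 * k) - 1 ≤ m ∧
      (n : ℝ) ^ δ / 221184 ≤ (n : ℝ) * t / (221184 * k) := by
  have hnR : (0 : ℝ) < n := by exact_mod_cast hn0
  have hkR : (0 : ℝ) < k := by exact_mod_cast hk0
  have ht1R : (1 : ℝ) ≤ t := by exact_mod_cast ht1
  refine ⟨n / (18 * b), ?_, ?_, ?_, ?_⟩
  · apply Nat.div_le_of_le_mul
    calc n ≤ b * b := hnb
      _ ≤ 18 * (b * b) := Nat.le_mul_of_pos_left _ (by norm_num)
      _ = 18 * b * b := by ring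
  · have := Nat.mul_div_le n (18 * b)
    calc 18 * (b * (n / (18 * b))) = 18 * b * (n / (18 * b)) := by ring
      _ ≤ n := this
  · have e0 : n ≤ 18 * b * (n / (18 * b) + 1) :=
      (Nat.lt_mul_div_succ n (show 0 < 18 * b by positivity)).le
    generalize n / (18 * b) = m at e0
    have e1 : (n : ℝ) ≤ 18 * b * (m + 1) := by exact_mod_cast e0
    have hm0 : (0 : ℝ) ≤ m := Nat.cast_nonneg m
    have e2 : (n : ℝ) * t / (221184 * k) ≤ m + 1 := by
      rw [div_le_iff₀ (by positivity)]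
      calc (n : ℝ) * t ≤ 18 * b * (m + 1) * t := mul_le_mul_of_nonneg_right e1 (by linarith)
        _ = 18 * (m + 1) * (b * t) := by ring
        _ ≤ 18 * (m + 1) * (12288 * k) := mul_le_mul_of_nonneg_left hbt (by positivity)
        _ = (m + 1) * (221184 * k) := by ring
    linarith
  · rw [div_le_div_iff₀ (by norm_num) (by positivity)]
    have e1 : (n : ℝ) ^ δ * k ≤ n := by
      calc (n : ℝ) ^ δ * k ≤ (n : ℝ) ^ δ * (n : ℝ) ^ (1 - δ) :=
            mul_le_mul_of_nonneg_left hk2 (by positivity)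
        _ = n := by rw [← Real.rpow_add hnR]; simp
    have e2 : (n : ℝ) * 1 ≤ n * t := mul_le_mul_of_nonneg_left ht1R hnR.le
    calc (n : ℝ) ^ δ * (221184 * k) = ((n : ℝ) ^ δ * k) * 221184 := by ring
      _ ≤ (n * t) * 221184 := mul_le_mul_of_nonneg_right (by linarith) (by norm_num)

/-- Parameters for one pair. -/
theorem params_one {δ : ℝ} (h0 : 0 < δ) (h1 : δ < 1 / 2) {r n k : ℕ} (hrN : 0 < r)
    (hr16 : (16 : ℝ) ≤ r) (hδr : 1 / (r : ℝ) ≤ δ / 8)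
    (hlp : Real.log n ^ (2 : ℕ) ≤ (n : ℝ) ^ (δ / 8)) (h4 : 4 ≤ Real.log n)
    (h40 : 1099511627776 ≤ (n : ℝ) ^ (δ / 2)) (hnr : 2 ^ r ≤ n)
    (hk1 : Real.sqrt n * Real.log n ≤ k) (hk2 : (k : ℝ) ≤ (n : ℝ) ^ (1 - δ)) :
    ∃ t b m : ℕ, 1 ≤ t ∧ 12 * (512 * k) ≤ b * t ∧
        2 ^ 18 * (8 ^ t * (Nat.size n * t)) ≤ m ∧ m ≤ b ∧ 18 * (b * m) ≤ n ∧
        1 / (64 * 221184 * 2 * (r : ℝ)) * (n * Real.log n / k) ≤ ((m / 32 : ℕ) : ℝ) := by
  obtain ⟨hL1, hlogL, hL3, hL2⟩ := size_log h4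
  have hLr : r ≤ Nat.size n := (Nat.lt_size.2 hnr).le
  generalize Nat.size n = L at hL1 hlogL hL3 hL2 hLr ⊢
  have hn0 : 0 < n := lt_of_lt_of_le (by positivity) hnr
  have hnR : (0 : ℝ) < n := by exact_mod_cast hn0
  have hrpos : (0 : ℝ) < r := by exact_mod_cast hrN
  have ht1 : 1 ≤ L / r := (Nat.one_le_div_iff hrN).2 hLr
  have htL : L / r * r ≤ L := Nat.div_mul_le_self _ _
  have ht2N : L ≤ r * (L / r + 1) := (Nat.lt_mul_div_succ L hrN).le
  generalize L / r = t at ht1 htL ht2N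
  have htR : (t : ℝ) * r ≤ L := by exact_mod_cast htL
  have ht2 : (L : ℝ) ≤ t * (2 * r) := by
    have h' : L ≤ t * (2 * r) := by
      have : r ≤ t * r := Nat.le_mul_of_pos_left _ ht1
      calc L ≤ r * (t + 1) := ht2N
        _ = t * r + r := by ring
        _ ≤ t * r + t * r := by omega
        _ = t * (2 * r) := by ring
    exact_mod_cast h'
  have ht1R : (1 : ℝ) ≤ t := by exact_mod_cast ht1
  have hsq : 0 < Real.sqrt n := Real.sqrt_pos.2 hnR
  have hkR : (0 : ℝ) < k := lt_of_lt_of_le (mul_pos hsq (by linarith)) hk1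
  have hk0 : 0 < k := by exact_mod_cast hkR
  have ht3 : (t : ℝ) ≤ Real.log n := by
    have : (t : ℝ) * 16 ≤ t * r := mul_le_mul_of_nonneg_left hr16 (by linarith)
    linarith
  obtain ⟨b, hb0, hb1, hnb, hbt⟩ := block hn0 ht1 ht3 h4 hk1
  obtain ⟨m, hmb, hsp, hXm, hXn⟩ := blocks hn0 hk0 hb0 ht1 hnb hbt hk2
  have hYY : (n : ℝ) ^ δ = (n : ℝ) ^ (δ / 2) * (n : ℝ) ^ (δ / 2) := by
    rw [← Real.rpow_add hnR]; congr 1; ring
  rw [hYY] at hXn
  obtain ⟨hm1, hX64⟩ := num_bd h40 hXn hXm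
  have h8 := pow_eight hnR h0 h1 hrpos hδr htR (Nat.cast_nonneg L) hL2
  have hLt : (L : ℝ) * t ≤ 9 * (n : ℝ) ^ (δ / 8) := by
    have e1 : (t : ℝ) ≤ 3 * Real.log n := by linarith
    calc (L : ℝ) * t ≤ (3 * Real.log n) * (3 * Real.log n) :=
          mul_le_mul hL3 e1 (by linarith) (by linarith)
      _ = 9 * Real.log n ^ (2 : ℕ) := by ring
      _ ≤ 9 * (n : ℝ) ^ (δ / 8) := mul_le_mul_of_nonneg_left hlp (by norm_num)
  have hthird : 2 ^ 18 * (8 ^ t * (L * t)) ≤ m := by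
    have hpw : (n : ℝ) ^ (3 * δ / 8) * (n : ℝ) ^ (δ / 8) = (n : ℝ) ^ (δ / 2) := by
      rw [← Real.rpow_add hnR]; congr 1; ring
    have f1 : (8 : ℝ) ^ t * (L * t) ≤ (2 * (n : ℝ) ^ (3 * δ / 8)) * (9 * (n : ℝ) ^ (δ / 8)) :=
      mul_le_mul h8 hLt (by positivity) (by positivity)
    have f2 : (2 * (n : ℝ) ^ (3 * δ / 8)) * (9 * (n : ℝ) ^ (δ / 8)) =
        18 * (n : ℝ) ^ (δ / 2) := by rw [← hpw]; ring
    rw [f2] at f1
    have f3 : (262144 : ℝ) * (8 ^ t * (L * t)) ≤ m := by linarith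
    have f4 : 262144 * (8 ^ t * (L * t)) ≤ m := by exact_mod_cast f3
    exact le_trans (le_of_eq (by norm_num)) f4
  refine ⟨t, b, m, ht1, hb1, hthird, hmb, hsp, ?_⟩
  have e3 : Real.log n ≤ t * (2 * r) := hlogL.trans ht2
  have hm32 : (n : ℝ) * t / (221184 * k) / 64 ≤ ((m / 32 : ℕ) : ℝ) := by
    have e1 : m ≤ 32 * (m / 32) + 31 := by omega
    generalize m / 32 = q at e1
    have e2 : (m : ℝ) ≤ 32 * (q : ℝ) + 31 := by exact_mod_cast e1
    linarith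
  refine le_trans ?_ hm32
  have e5 : (n : ℝ) * Real.log n / k ≤ n * (t * (2 * r)) / k :=
    div_le_div_of_nonneg_right (mul_le_mul_of_nonneg_left e3 hnR.le) hkR.le
  calc 1 / (64 * 221184 * 2 * (r : ℝ)) * (n * Real.log n / k)
      ≤ 1 / (64 * 221184 * 2 * (r : ℝ)) * (n * (t * (2 * r)) / k) :=
        mul_le_mul_of_nonneg_left e5 (by positivity)
    _ = (n : ℝ) * t / (221184 * k) / 64 := by
        field_simp

/-- Parameters for `√n log n ≤ k ≤ n ^ (1 - δ)`. -/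
theorem params {δ : ℝ} (h0 : 0 < δ) (h1 : δ < 1 / 2) : ∃ c : ℝ, 0 < c ∧
    ∀ᶠ n : ℕ in atTop, ∀ k : ℕ, Real.sqrt n * Real.log n ≤ k → (k : ℝ) ≤ (n : ℝ) ^ (1 - δ) →
      ∃ t b m : ℕ, 1 ≤ t ∧ 12 * (512 * k) ≤ b * t ∧
        2 ^ 18 * (8 ^ t * (Nat.size n * t)) ≤ m ∧ m ≤ b ∧ 18 * (b * m) ≤ n ∧
        c * (n * Real.log n / k) ≤ ((m / 32 : ℕ) : ℝ) := by
  obtain ⟨r, hr1⟩ : ∃ r : ℕ, 8 / δ ≤ r := exists_nat_ge _
  have hr16 : (16 : ℝ) ≤ r := by
    refine le_trans ?_ hr1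
    rw [le_div_iff₀ h0]
    linarith
  have hrpos : (0 : ℝ) < r := by linarith
  have hrN : 0 < r := by exact_mod_cast hrpos
  have hδr : 1 / (r : ℝ) ≤ δ / 8 := by
    rw [div_le_div_iff₀ hrpos (by norm_num)]
    rw [div_le_iff₀ h0] at hr1
    linarith
  refine ⟨1 / (64 * 221184 * 2 * r), by positivity, ?_⟩
  have hnat : Tendsto (fun n : ℕ => (n : ℝ)) atTop atTop := tendsto_natCast_atTop_atTop
  have hlog : Tendsto (fun n : ℕ => Real.log n) atTop atTop :=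
    Real.tendsto_log_atTop.comp hnat
  have hpow : Tendsto (fun n : ℕ => (n : ℝ) ^ (δ / 2)) atTop atTop :=
    (tendsto_rpow_atTop (by positivity)).comp hnat
  have hlp : ∀ᶠ n : ℕ in atTop, Real.log n ^ (2 : ℕ) ≤ (n : ℝ) ^ (δ / 8) := by
    have h := isLittleO_log_rpow_rpow_atTop (r := 2) (s := δ / 8) (by positivity) |>.bound
      (show (0 : ℝ) < 1 by norm_num)
    have h' := hnat.eventually h
    filter_upwards [h', hlog.eventually_ge_atTop 4] with n hn hn4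
    have e1 : Real.log (n : ℝ) ^ (2 : ℝ) = Real.log n ^ (2 : ℕ) := by
      exact_mod_cast Real.rpow_natCast (Real.log n) 2
    rw [e1, one_mul, Real.norm_of_nonneg (by positivity), Real.norm_of_nonneg (by positivity)] at hn
    exact hn
  filter_upwards [hlp, hlog.eventually_ge_atTop 4, hpow.eventually_ge_atTop 1099511627776,
    eventually_ge_atTop (2 ^ r)] with n hlp h4 h40 hnr
  intro k hk1 hk2
  exact params_one h0 h1 hrN hr16 hδr hlp h4 h40 hnr hk1 hk2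

end Vale.Agent.P336.H795
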