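import Vale.Agent.P336.R2.H100.FinM
import Vale.Agent.P336.R2.H100.GenMid
import Vale.Agent.P336.R2.H100.Params

/-!
# P336: the lower bound for the middle gates for all `k ≤ n ^ (1 - δ)`
-/

namespace Vale.Agent.P336.H100

open Filter Vale.Agent.P336.H742

/-- The lower bound for `C₀ log n ≤ k ≤ c √n log n`. -/
theorem small_k : ∀ᶠ n : ℕ in atTop, ∀ k : ℕ, (2 : ℝ) ^ 65 * Real.log n ≤ k →
    (k : ℝ) ≤ 1 / 2 ^ 31 * (Real.sqrt n * Real.log n) → ∀ C : Circuit n,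
      (∀ j ∈ C.top, {i | i ∈ C.conj j ∧ (k : ℕ∞) < (C.lits i).encard}.ncard ≤ 2 ^ k) →
      ((∀ x, C.Accepts x ↔ slice lang n x = true) ∨
        (∀ x, C.Accepts x ↔ slice lang n x = false)) →
      (2 : ℝ) ^ (1 / 2 ^ 31 * (n * Real.log (k / Real.log n) / k)) ≤ C.middle := by
  have hlog : Tendsto (fun n : ℕ => Real.log n) atTop atTop :=
    Real.tendsto_log_atTop.comp tendsto_natCast_atTop_atTop
  filter_upwards [eventually_hyp, hlog.eventually_ge_atTop 1] with n h1 h2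
  intro k hk hk2 C hC hcomp
  have hlog0 : (0 : ℝ) < Real.log n := by linarith
  have hk0 : (0 : ℝ) < k := lt_of_lt_of_le (by positivity) hk
  have hyp := h1 k hk (hk2.trans (mul_le_mul_of_nonneg_right
    (by norm_num : (1 : ℝ) / 2 ^ 31 ≤ 1 / 2 ^ 26) (by positivity)))
  refine le_trans ?_ (middle_ge hyp C hC hcomp)
  rw [← Real.rpow_natCast 2 (NumK.nu n (512 * k))]
  refine Real.rpow_le_rpow_of_exponent_le (by norm_num) ?_
  have h5 := NumK.nu_ge hyp h2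
  push_cast at h5
  have h6 : Real.log (k / Real.log n) ≤ Real.log (512 * k / Real.log n) := by
    refine Real.log_le_log (by positivity) ?_
    gcongr
    linarith
  have h7 : (n : ℝ) * Real.log (k / Real.log n) / k ≤
      512 * (n * Real.log (512 * k / Real.log n) / (512 * k)) := by
    have h9 : 512 * ((n : ℝ) * Real.log (512 * k / Real.log n) / (512 * k)) =
        n * Real.log (512 * k / Real.log n) / k := by
      field_simp
    rw [h9]
    gcongr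
  have h8 : (0 : ℝ) ≤ NumK.nu n (512 * k) := Nat.cast_nonneg _
  generalize (NumK.nu n (512 * k) : ℝ) = v at *
  calc (1 : ℝ) / 2 ^ 31 * ((n : ℝ) * Real.log (k / Real.log n) / k)
      ≤ 1 / 2 ^ 31 * (512 * (4000000 * v)) := by
        refine mul_le_mul_of_nonneg_left (h7.trans ?_) (by positivity)
        exact mul_le_mul_of_nonneg_left h5 (by norm_num)
    _ = (1 / 2 ^ 31 * (512 * 4000000)) * v := by ring
    _ ≤ 1 * v := mul_le_mul_of_nonneg_right (by norm_num) h8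
    _ = v := one_mul v

/-- The lower bound for `c √n log n ≤ k ≤ n ^ (1 - δ)`. -/
theorem large_k {δ : ℝ} (h0 : 0 < δ) : ∃ c : ℝ, 0 < c ∧
    ∀ᶠ n : ℕ in atTop, ∀ k : ℕ, 1 / 2 ^ 31 * (Real.sqrt n * Real.log n) ≤ k →
      (k : ℝ) ≤ (n : ℝ) ^ (1 - δ) → ∀ C : Circuit n,
        (∀ j ∈ C.top, {i | i ∈ C.conj j ∧ (k : ℕ∞) < (C.lits i).encard}.ncard ≤ 2 ^ k) →
        ((∀ x, C.Accepts x ↔ slice lang n x = true) ∨
          (∀ x, C.Accepts x ↔ slice lang n x = false)) →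
        (2 : ℝ) ^ (c * (n * Real.log (k / Real.log n) / k)) ≤ C.middle := by
  set d : ℝ := min (δ / 2) (1 / 4) with hd
  have hd0 : 0 < d := by rw [hd]; positivity
  have hd1 : d < 1 / 2 := lt_of_le_of_lt (min_le_right _ _) (by norm_num)
  have hdδ : d ≤ δ / 2 := min_le_left _ _
  obtain ⟨c, hc, hpar⟩ := H795.params hd0 hd1
  have hnat : Tendsto (fun n : ℕ => (n : ℝ)) atTop atTop := tendsto_natCast_atTop_atTop
  have hlog : Tendsto (fun n : ℕ => Real.log n) atTop atTop :=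
    Real.tendsto_log_atTop.comp hnat
  have hbig : ∀ᶠ n : ℕ in atTop, (2 : ℝ) ^ 31 ≤ (n : ℝ) ^ (δ - d) :=
    ((tendsto_rpow_atTop (by linarith : 0 < δ - d)).comp hnat).eventually_ge_atTop _
  refine ⟨c / 2 ^ 31, by positivity, ?_⟩
  filter_upwards [hpar, hbig, hlog.eventually_ge_atTop 1] with n h2 h3 h4
  intro k hk1 hk2 C hC hcomp
  have hlog0 : (0 : ℝ) < Real.log n := by linarith
  have hn0 : 0 < n := by
    rcases Nat.eq_zero_or_pos n with h | h
    · rw [h] at h4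
      norm_num at h4
    · exact h
  have hn0' : (0 : ℝ) < n := by exact_mod_cast hn0
  have hk0 : (0 : ℝ) < k := lt_of_lt_of_le (by positivity) hk1
  have hk0' : 0 < k := by exact_mod_cast hk0
  have hcast : ((2 ^ 31 * k : ℕ) : ℝ) = 2 ^ 31 * (k : ℝ) := by
    rw [Nat.cast_mul, Nat.cast_pow, Nat.cast_ofNat]
  have e1 : Real.sqrt n * Real.log n ≤ ((2 ^ 31 * k : ℕ) : ℝ) := by
    rw [hcast]
    linarith
  have e2 : ((2 ^ 31 * k : ℕ) : ℝ) ≤ (n : ℝ) ^ (1 - d) := by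
    rw [hcast]
    calc (2 : ℝ) ^ 31 * k ≤ (n : ℝ) ^ (δ - d) * (n : ℝ) ^ (1 - δ) := by gcongr
      _ = (n : ℝ) ^ (1 - d) := by
          rw [← Real.rpow_add hn0']
          congr 1
          ring
  obtain ⟨t, b, m, ht, hkt, hm, hmb, hsp, hbd⟩ := h2 (2 ^ 31 * k) e1 e2
  have hPar : Par n (2 ^ 31 * k) 1 m b t :=
    ⟨hn0, Nat.mul_pos (by norm_num) hk0', le_rfl, ht, hkt, hm, hmb, by rw [mul_one]; exact hsp⟩
  have h5 := middle_ge_gen hPar C
    (fun j hj => few_mono (Nat.le_mul_of_pos_left _ (by norm_num)) C (hC j hj)) hcomp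
  rw [one_mul, ← Real.rpow_natCast 2 (m / 32)] at h5
  refine le_trans (Real.rpow_le_rpow_of_exponent_le (by norm_num) (le_trans ?_ hbd)) h5
  have hkn : (k : ℝ) ≤ n := by
    have hn1 : (1 : ℝ) ≤ n := by exact_mod_cast hn0
    refine hk2.trans ?_
    calc (n : ℝ) ^ (1 - δ) ≤ (n : ℝ) ^ (1 : ℝ) :=
          Real.rpow_le_rpow_of_exponent_le hn1 (by linarith)
      _ = n := Real.rpow_one _
  have h6 : Real.log (k / Real.log n) ≤ Real.log n := by
    refine Real.log_le_log (by positivity) ?_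
    rw [div_le_iff₀ hlog0]
    nlinarith
  rw [hcast]
  calc c / 2 ^ 31 * (n * Real.log (k / Real.log n) / k)
      ≤ c / 2 ^ 31 * (n * Real.log n / k) := by gcongr
    _ = c * (n * Real.log n / (2 ^ 31 * k)) := by field_simp

/-- **Main theorem**, second form. -/
theorem mainG {δ : ℝ} (h0 : 0 < δ) : ∃ c : ℝ, 0 < c ∧ ∃ C₀ : ℝ,
    ∀ᶠ n : ℕ in atTop, ∀ k : ℕ, C₀ * Real.log n ≤ k → (k : ℝ) ≤ (n : ℝ) ^ (1 - δ) →
      ∀ C : Circuit n,
        (∀ j ∈ C.top, {i | i ∈ C.conj j ∧ (k : ℕ∞) < (C.lits i).encard}.ncard ≤ 2 ^ k) →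
        ((∀ x, C.Accepts x ↔ slice lang n x = true) ∨
          (∀ x, C.Accepts x ↔ slice lang n x = false)) →
        (2 : ℝ) ^ (c * (n * Real.log (k / Real.log n) / k)) ≤ C.middle := by
  obtain ⟨c, hc, hl⟩ := large_k h0
  have hlog : Tendsto (fun n : ℕ => Real.log n) atTop atTop :=
    Real.tendsto_log_atTop.comp tendsto_natCast_atTop_atTop
  refine ⟨min c (1 / 2 ^ 31), by positivity, 2 ^ 65, ?_⟩
  filter_upwards [hl, small_k, hlog.eventually_ge_atTop 1] with n h1 h2 h3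
  intro k hk1 hk2 C hC hcomp
  have hlog0 : (0 : ℝ) < Real.log n := by linarith
  have hk0 : (0 : ℝ) < k := lt_of_lt_of_le (by positivity) hk1
  have hL0 : 0 ≤ Real.log (k / Real.log n) := by
    apply Real.log_nonneg
    rw [le_div_iff₀ hlog0]
    nlinarith
  have hX : 0 ≤ (n : ℝ) * Real.log (k / Real.log n) / k := by positivity
  rcases le_total (k : ℝ) (1 / 2 ^ 31 * (Real.sqrt n * Real.log n)) with h4 | h4
  · refine le_trans (Real.rpow_le_rpow_of_exponent_le (by norm_num) ?_) (h2 k hk1 h4 C hC hcomp)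
    exact mul_le_mul_of_nonneg_right (min_le_right _ _) hX
  · refine le_trans (Real.rpow_le_rpow_of_exponent_le (by norm_num) ?_) (h1 k h4 hk2 C hC hcomp)
    exact mul_le_mul_of_nonneg_right (min_le_left _ _) hX

/-- Middle fan-in at most `2 ^ (n ^ a)`, for any `a` between `0` and `1`. -/
theorem fan_of_main {L : Set (List Bool)}
    (h : ∀ δ : ℝ, 0 < δ → ∃ c : ℝ, 0 < c ∧ ∃ C₀ : ℝ,
      ∀ᶠ n : ℕ in atTop, ∀ k : ℕ, C₀ * Real.log n ≤ k → (k : ℝ) ≤ (n : ℝ) ^ (1 - δ) →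
      ∀ C : Circuit n,
        (∀ j ∈ C.top, {i | i ∈ C.conj j ∧ (k : ℕ∞) < (C.lits i).encard}.ncard ≤ 2 ^ k) →
        ((∀ x, C.Accepts x ↔ slice L n x = true) ∨ (∀ x, C.Accepts x ↔ slice L n x = false)) →
        (2 : ℝ) ^ (c * (n * Real.log (k / Real.log n) / k)) ≤ C.middle)
    {a : ℝ} (ha0 : 0 < a) (ha1 : a < 1) :
    ∃ c' : ℝ, 0 < c' ∧ ∀ᶠ n : ℕ in atTop, ∀ C : Circuit n,
      (∀ j ∈ C.top, ((C.conj j).ncard : ℝ) ≤ 2 ^ ((n : ℝ) ^ a)) →
      ((∀ x, C.Accepts x ↔ slice L n x = true) ∨ (∀ x, C.Accepts x ↔ slice L n x = false)) →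
      (2 : ℝ) ^ (c' * ((n : ℝ) ^ (1 - a) * Real.log n)) ≤ C.middle := by
  obtain ⟨c, hc, C₀, h⟩ := h ((1 - a) / 2) (by linarith)
  have hnat : Tendsto (fun n : ℕ => (n : ℝ)) atTop atTop := tendsto_natCast_atTop_atTop
  have hlog : Tendsto (fun n : ℕ => Real.log n) atTop atTop :=
    Real.tendsto_log_atTop.comp hnat
  have hM : (0 : ℝ) < 1 / (|C₀| + 1) := by positivity
  have hsmall : ∀ᶠ n : ℕ in atTop, ‖Real.log (n : ℝ)‖ ≤ 1 / (|C₀| + 1) * ‖(n : ℝ) ^ a‖ :=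
    hnat.eventually ((isLittleO_log_rpow_atTop ha0).bound hM)
  have hsmall2 : ∀ᶠ n : ℕ in atTop, ‖Real.log (n : ℝ)‖ ≤ 1 * ‖(n : ℝ) ^ (a / 2)‖ :=
    hnat.eventually ((isLittleO_log_rpow_atTop (by positivity : 0 < a / 2)).bound one_pos)
  have hbig : ∀ᶠ n : ℕ in atTop, (2 : ℝ) ≤ (n : ℝ) ^ ((1 - a) / 2) :=
    ((tendsto_rpow_atTop (by linarith : 0 < (1 - a) / 2)).comp hnat).eventually_ge_atTop _
  refine ⟨c * (a / 4), by positivity, ?_⟩
  filter_upwards [h, hsmall, hsmall2, hbig, hlog.eventually_ge_atTop 1] with n h2 h3 h4 h5 h6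
  intro C hC hcomp
  have hlog0 : (0 : ℝ) < Real.log n := by linarith
  have hn0 : 0 < n := by
    rcases Nat.eq_zero_or_pos n with h | h
    · rw [h] at h6
      norm_num at h6
    · exact h
  have hn0' : (0 : ℝ) < n := by exact_mod_cast hn0
  have hn1 : (1 : ℝ) ≤ n := by exact_mod_cast hn0
  have hna : (0 : ℝ) < (n : ℝ) ^ a := by positivity
  have hna1 : (1 : ℝ) ≤ (n : ℝ) ^ a := Real.one_le_rpow hn1 ha0.le
  rw [Real.norm_of_nonneg hlog0.le, Real.norm_of_nonneg hna.le] at h3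
  rw [Real.norm_of_nonneg hlog0.le, Real.norm_of_nonneg (by positivity), one_mul] at h4
  set k : ℕ := ⌈(n : ℝ) ^ a⌉₊ with hk
  have hk1 : (n : ℝ) ^ a ≤ k := Nat.le_ceil _
  have hk2 : (k : ℝ) ≤ 2 * (n : ℝ) ^ a := by
    have := (Nat.ceil_lt_add_one hna.le).le
    linarith
  have hk0 : (0 : ℝ) < k := lt_of_lt_of_le hna hk1
  -- the range of `k`
  have e1 : C₀ * Real.log n ≤ k := by
    have hC1 : (0 : ℝ) < |C₀| + 1 := by positivity
    have e2 : (|C₀| + 1) * Real.log n ≤ (n : ℝ) ^ a := by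
      calc (|C₀| + 1) * Real.log n ≤ (|C₀| + 1) * (1 / (|C₀| + 1) * (n : ℝ) ^ a) := by gcongr
        _ = (n : ℝ) ^ a := by field_simp
    have e3 : C₀ * Real.log n ≤ (|C₀| + 1) * Real.log n := by
      apply mul_le_mul_of_nonneg_right _ hlog0.le
      have := le_abs_self C₀
      linarith
    linarith
  have e2 : (k : ℝ) ≤ (n : ℝ) ^ (1 - (1 - a) / 2) := by
    calc (k : ℝ) ≤ 2 * (n : ℝ) ^ a := hk2
      _ ≤ (n : ℝ) ^ ((1 - a) / 2) * (n : ℝ) ^ a := by gcongr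
      _ = (n : ℝ) ^ (1 - (1 - a) / 2) := by
          rw [← Real.rpow_add hn0']
          congr 1
          ring
  -- the wide gates
  have e3 : ∀ j ∈ C.top, {i | i ∈ C.conj j ∧ (k : ℕ∞) < (C.lits i).encard}.ncard ≤ 2 ^ k := by
    intro j hj
    have e4 : {i | i ∈ C.conj j ∧ (k : ℕ∞) < (C.lits i).encard}.ncard ≤ (C.conj j).ncard :=
      Set.ncard_le_ncard (fun i hi => hi.1) (Set.toFinite _)
    have e5 : ((C.conj j).ncard : ℝ) ≤ ((2 ^ k : ℕ) : ℝ) := by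
      refine (hC j hj).trans ?_
      push_cast
      rw [← Real.rpow_natCast 2 k]
      exact Real.rpow_le_rpow_of_exponent_le (by norm_num) hk1
    exact e4.trans (by exact_mod_cast e5)
  have e4 := h2 k e1 e2 C e3 hcomp
  refine le_trans (Real.rpow_le_rpow_of_exponent_le (by norm_num) ?_) e4
  -- the exponent
  have e5 : a / 2 * Real.log n ≤ Real.log (k / Real.log n) := by
    rw [← Real.log_rpow hn0']
    refine Real.log_le_log (by positivity) ?_
    rw [le_div_iff₀ hlog0]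
    have e6 : (n : ℝ) ^ a = (n : ℝ) ^ (a / 2) * (n : ℝ) ^ (a / 2) := by
      rw [← Real.rpow_add hn0']
      congr 1
      ring
    calc (n : ℝ) ^ (a / 2) * Real.log n ≤ (n : ℝ) ^ (a / 2) * (n : ℝ) ^ (a / 2) := by gcongr
      _ = (n : ℝ) ^ a := e6.symm
      _ ≤ k := hk1
  have e6 : (n : ℝ) ^ (1 - a) * (n : ℝ) ^ a = n := by
    rw [← Real.rpow_add hn0', sub_add_cancel, Real.rpow_one]
  have e7 : (n : ℝ) ^ (1 - a) * Real.log n * (a / 4) ≤ n * Real.log (k / Real.log n) / k := by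
    rw [le_div_iff₀ hk0]
    have hp : (0 : ℝ) < (n : ℝ) ^ (1 - a) := by positivity
    calc (n : ℝ) ^ (1 - a) * Real.log n * (a / 4) * k
        ≤ (n : ℝ) ^ (1 - a) * Real.log n * (a / 4) * (2 * (n : ℝ) ^ a) := by gcongr
      _ = ((n : ℝ) ^ (1 - a) * (n : ℝ) ^ a) * (a / 2 * Real.log n) := by ring
      _ = n * (a / 2 * Real.log n) := by rw [e6]
      _ ≤ n * Real.log (k / Real.log n) := by gcongr
  calc c * (a / 4) * ((n : ℝ) ^ (1 - a) * Real.log n)
      = c * ((n : ℝ) ^ (1 - a) * Real.log n * (a / 4)) := by ring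
    _ ≤ c * (n * Real.log (k / Real.log n) / k) := by gcongr

end Vale.Agent.P336.H100
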