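import Vale.Agent.P336.H742.Average

/-!
# P336: a seed which is good for all restrictions of the block variables

`ext S c u` gives the block variables outside `S` the values `c` and the others the values
`u` (up to `c`).  One seed has small correlation for all `S`, `c` at the same time.
-/

set_option linter.unusedSectionVars false

namespace Vale.Agent.P336.H100

open Finset Vale.Agent.P336.Expansion Vale.Agent.P336.H742 Vale.Agent.P336.Moment

noncomputable section

section ext

variable {W : Type} [Fintype W] [DecidableEq W]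

/-- The block values of a restriction. -/
def ext (S : Finset W) (c : W → Bool) (u : {w // w ∈ S} → Bool) : W → Bool :=
  fun w => if hw : w ∈ S then xor (u ⟨w, hw⟩) (c w) else c w

theorem ext_mem {S : Finset W} {c : W → Bool} {u : {w // w ∈ S} → Bool} {w : W} (hw : w ∈ S) :
    ext S c u w = xor (u ⟨w, hw⟩) (c w) := dif_pos hw

theorem ext_notMem {S : Finset W} {c : W → Bool} {u : {w // w ∈ S} → Bool} {w : W}
    (hw : w ∉ S) : ext S c u w = c w := dif_neg hw

theorem ext_injective (S : Finset W) (c : W → Bool) : Function.Injective (ext S c) := by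
  intro u u' h
  funext ⟨w, hw⟩
  have h1 := congrFun h w
  rw [ext_mem hw, ext_mem hw] at h1
  cases h2 : u ⟨w, hw⟩ <;> cases h3 : u' ⟨w, hw⟩ <;> cases h4 : c w <;> simp_all

/-- The tests for the restriction `(S, c)`. -/
def FE (t K : ℕ) (q : Finset W × (W → Bool)) : Finset (Finset W × Finset (W → Bool)) :=
  (FF {w // w ∈ q.1} t K).image fun p =>
    (p.1.map (Function.Embedding.subtype _), p.2.image (ext q.1 q.2))

/-- All the tests. -/
def FA (W : Type) [Fintype W] [DecidableEq W] (t K : ℕ) :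
    Finset (Finset W × Finset (W → Bool)) :=
  (univ : Finset (Finset W × (W → Bool))).biUnion (FE t K)

theorem card_FA (t K : ℕ) :
    (FA W t K).card ≤ 16 ^ Fintype.card W * (1 + (1 + 2 * Fintype.card W) ^ t) ^ K := by
  refine card_biUnion_le.trans ?_
  have h1 : ∀ q ∈ (univ : Finset (Finset W × (W → Bool))), (FE t K q).card ≤
      4 ^ Fintype.card W * (1 + (1 + 2 * Fintype.card W) ^ t) ^ K := by
    intro q _
    refine card_image_le.trans ((card_FF t K).trans ?_)
    have h2 : Fintype.card {w // w ∈ q.1} ≤ Fintype.card W := Fintype.card_subtype_le _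
    gcongr
    norm_num
  refine (sum_le_card_nsmul _ _ _ h1).trans (le_of_eq ?_)
  rw [card_univ, Fintype.card_prod, Fintype.card_finset, Fintype.card_pi, prod_const,
    Fintype.card_bool, card_univ, smul_eq_mul, ← mul_assoc, ← mul_pow, ← mul_pow]
  norm_num

theorem FA_agree {t K : ℕ} {p : Finset W × Finset (W → Bool)} (hp : p ∈ FA W t K) :
    ∃ y : W → Bool, ∀ z ∈ p.2, ∀ v, v ∉ p.1 → z v = y v := by
  obtain ⟨⟨S, c⟩, -, hp⟩ := mem_biUnion.1 hp
  obtain ⟨p', hp', rfl⟩ := mem_image.1 hp
  obtain ⟨y, hy⟩ := FF_agree hp'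
  refine ⟨ext S c y, fun z hz v hv => ?_⟩
  obtain ⟨u, hu, rfl⟩ := mem_image.1 hz
  by_cases hvS : v ∈ S
  · have h1 : (⟨v, hvS⟩ : {w // w ∈ S}) ∉ p'.1 := fun h =>
      hv (mem_map.2 ⟨_, h, rfl⟩)
    have h2 := mem_cube.1 (hy hu) _ h1
    simp only
    rw [ext_mem hvS, ext_mem hvS, h2]
  · simp only
    rw [ext_notMem hvS, ext_notMem hvS]

end ext

variable {G U : Type} [Fintype G] [DecidableEq G] [Fintype U] [DecidableEq U]

/-- **One seed for all restrictions.** -/
theorem robust {t K b k n Q s m : ℕ} (ht : 1 ≤ t) (hb : 0 < b) (hk : 12 * k ≤ b * t)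
    (hn : Even n)
    (hcard : 16 ^ Fintype.card (G × (U ⊕ U)) *
      (1 + (1 + 2 * Fintype.card (G × (U ⊕ U))) ^ t) ^ K < 2 ^ (n * Q))
    {θ : ℝ} (h0 : 0 < θ) (h1 : θ ≤ 1) (hη : (1 - θ) * 3 ^ t ≤ (1 / 2) ^ t)
    {δ : ℝ} (hδ : 2 * (2 ^ (t * s + (Fintype.card G * n + Q) + Fintype.card G) *
      ((7 / 8 : ℝ) ^ (Fintype.card G * Fintype.card U) * (4 / 3) ^ m) +
        (2 * θ ^ K + (1 / 2) ^ (t * s))) ≤ δ) :
    ∃ a : G × U × U → Bool, ∀ (S : Finset (G × (U ⊕ U))) (c : G × (U ⊕ U) → Bool),
      Sᶜ.card ≤ m →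
      Corr (fun x : {w // w ∈ S} × Fin b → Bool => hB a (ext S c (yv parity x))) k δ := by
  obtain ⟨a, ha⟩ := good_seed n Q hn (FA (G × (U ⊕ U)) t K)
    (fun p hp => FA_agree hp) (lt_of_le_of_lt (card_FA t K) hcard)
  have hh : ∀ z, |hB a z| ≤ 1 := by
    intro z
    rw [Moment.hB_eq]
    split_ifs <;> norm_num
  refine ⟨a, fun S c hS => ?_⟩
  refine corr_of_good (K := K) (s := s) ht hb hk (fun u => hB a (ext S c u)) (fun u => hh _)
    (fun J => 2 ^ (mx (J.map (Function.Embedding.subtype _)) + Fintype.card G * n + Q))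
    (fun p hp => ?_) h0 h1 hη (le_trans ?_ hδ)
  · have h2 := ha (p.1.map (Function.Embedding.subtype _), p.2.image (ext S c))
      (mem_biUnion.2 ⟨(S, c), mem_univ _, mem_image.2 ⟨p, hp, rfl⟩⟩)
    simp only at h2
    rw [sum_image fun x _ y _ h => ext_injective S c h] at h2
    exact h2
  · have h2 : ∑ J : Finset {w // w ∈ S}, (1 / 6 : ℝ) ^ J.card *
        2 ^ (mx (J.map (Function.Embedding.subtype _)) + Fintype.card G * n + Q) ≤
        2 ^ (Fintype.card G * n + Q) * (2 * (14 / 9) ^ Fintype.card U) ^ Fintype.card G := by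
      have h3 : ∀ J : Finset {w // w ∈ S}, (1 / 6 : ℝ) ^ J.card *
          2 ^ (mx (J.map (Function.Embedding.subtype _)) + Fintype.card G * n + Q) =
          2 ^ (Fintype.card G * n + Q) *
            ((1 / 6 : ℝ) ^ (J.map (Function.Embedding.subtype _)).card *
              2 ^ mx (J.map (Function.Embedding.subtype _))) := by
        intro J
        rw [add_assoc, pow_add, card_map]
        ring
      rw [sum_congr rfl fun J _ => h3 J, ← mul_sum]
      refine mul_le_mul_of_nonneg_left (le_trans ?_ (sum_mx_le (G := G) (U := U))) (by positivity)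
      refine le_trans (le_of_eq (sum_map univ ⟨fun J : Finset {w // w ∈ S} =>
        J.map (Function.Embedding.subtype _), map_injective _⟩
        fun J => (1 / 6 : ℝ) ^ J.card * 2 ^ mx J).symm) ?_
      exact sum_le_sum_of_subset_of_nonneg (subset_univ _) fun _ _ _ => by positivity
    have h4 : ((3 : ℝ) / 4) ^ Fintype.card {w // w ∈ S} ≤
        (9 / 16) ^ (Fintype.card G * Fintype.card U) * (4 / 3) ^ m := by
      have e1 : Fintype.card {w // w ∈ S} = S.card := Fintype.card_coe S
      have e2 : S.card + Sᶜ.card = 2 * (Fintype.card G * Fintype.card U) := by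
        rw [card_add_card_compl, Fintype.card_prod, Fintype.card_sum]
        ring
      have e3 : ((9 : ℝ) / 16) ^ (Fintype.card G * Fintype.card U) =
          (3 / 4) ^ (S.card + Sᶜ.card) := by
        rw [e2, pow_mul (3 / 4 : ℝ) 2]
        norm_num
      rw [e1, e3, pow_add, mul_assoc]
      have e4 : (1 : ℝ) ≤ (3 / 4) ^ Sᶜ.card * (4 / 3) ^ m := by
        calc (1 : ℝ) = (3 / 4) ^ Sᶜ.card * (4 / 3) ^ Sᶜ.card := by
              rw [← mul_pow]; norm_num
          _ ≤ (3 / 4) ^ Sᶜ.card * (4 / 3) ^ m := by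
              gcongr
              norm_num
      exact le_mul_of_one_le_right (by positivity) e4
    gcongr 2 * (?_ + _)
    calc 2 ^ (t * s) * (3 / 4 : ℝ) ^ Fintype.card {w // w ∈ S} *
          ∑ J : Finset {w // w ∈ S}, (1 / 6 : ℝ) ^ J.card *
            2 ^ (mx (J.map (Function.Embedding.subtype _)) + Fintype.card G * n + Q)
        ≤ 2 ^ (t * s) * ((9 / 16 : ℝ) ^ (Fintype.card G * Fintype.card U) * (4 / 3) ^ m) *
          (2 ^ (Fintype.card G * n + Q) *
            (2 * (14 / 9) ^ Fintype.card U) ^ Fintype.card G) := by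
          gcongr
      _ = 2 ^ (t * s + (Fintype.card G * n + Q) + Fintype.card G) *
        ((7 / 8 : ℝ) ^ (Fintype.card G * Fintype.card U) * (4 / 3) ^ m) := by
          rw [mul_pow, ← pow_mul, mul_comm (Fintype.card U), pow_add _ _ (Fintype.card G),
            pow_add _ _ (Fintype.card G * n + Q),
            show (7 : ℝ) / 8 = 9 / 16 * (14 / 9) by norm_num, mul_pow]
          ring

end

end Vale.Agent.P336.H100
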