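import Vale.Agent.P336.R2.H100.Tree
import Vale.Agent.P336.R2.H100.Robust

/-!
# P336: the leaves of the decision tree

At a restriction of `W × Fin (2 b')` with few dead variables most blocks have `b'` alive
variables, and the restricted function is again a function of parities of blocks, of length `b'`.
-/

set_option linter.unusedSectionVars false

namespace Vale.Agent.P336.H100

open Finset Vale.Agent.P336.Expansion Vale.Agent.P336.H742

noncomputable section

theorem parity_extend {b b' : ℕ} (τ : Fin b' → Fin b) (hτ : Function.Injective τ)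
    (y : Fin b' → Bool) (x : Fin b → Bool) :
    parity (Function.extend τ y x) =
      xor (parity y) (parity (Function.extend τ (fun _ => false) x)) := by
  classical
  have h1 : (univ.filter fun j => Function.extend τ y x j = true) =
      (univ.filter fun j => y j = true).map ⟨τ, hτ⟩ ∪
        univ.filter fun j => Function.extend τ (fun _ => false) x j = true := by
    ext j
    rw [mem_union, mem_filter, mem_filter, mem_map]
    by_cases hj : ∃ j', τ j' = j
    · obtain ⟨j', rfl⟩ := hj
      rw [hτ.extend_apply, hτ.extend_apply]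
      constructor
      · rintro ⟨-, h⟩
        exact Or.inl ⟨j', mem_filter.2 ⟨mem_univ _, h⟩, rfl⟩
      · rintro (⟨j'', h, h'⟩ | ⟨-, h⟩)
        · have : j'' = j' := hτ h'
          subst this
          exact ⟨mem_univ _, (mem_filter.1 h).2⟩
        · exact absurd h (by simp)
    · rw [Function.extend_apply' _ _ _ hj, Function.extend_apply' _ _ _ hj]
      constructor
      · exact fun h => Or.inr h
      · rintro (⟨j', h, h'⟩ | h)
        · exact absurd ⟨j', h'⟩ hj
        · exact h
  have h2 : Disjoint ((univ.filter fun j => y j = true).map ⟨τ, hτ⟩)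
      (univ.filter fun j => Function.extend τ (fun _ => false) x j = true) := by
    rw [disjoint_left]
    intro j hj hj'
    obtain ⟨j', -, rfl⟩ := mem_map.1 hj
    have h3 := (mem_filter.1 hj').2
    simp only [Function.Embedding.coeFn_mk] at h3
    rw [hτ.extend_apply] at h3
    exact absurd h3 (by simp)
  have key : ∀ p q : ℕ, decide (Odd (p + q)) = xor (decide (Odd p)) (decide (Odd q)) := by
    intro p q
    by_cases hp : Odd p <;> by_cases hq : Odd q <;>
      simp [hp, hq, Nat.odd_add, ← Nat.not_odd_iff_even]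
  unfold parity
  rw [h1, card_union_of_disjoint h2, card_map, key]

variable {W : Type} [Fintype W] [DecidableEq W]

theorem extend_block {b b' : ℕ} {S : Finset W} {φ : {w // w ∈ S} × Fin b' → W × Fin b}
    (hφ : Function.Injective φ) (h1 : ∀ p, (φ p).1 = p.1.1) (y : {w // w ∈ S} × Fin b' → Bool)
    (x : W × Fin b → Bool) (w : {w // w ∈ S}) :
    (fun j => Function.extend φ y x (w.1, j)) =
      Function.extend (fun j' => (φ (w, j')).2) (fun j' => y (w, j')) (fun j => x (w.1, j)) := by
  have hτ : Function.Injective fun j' => (φ (w, j')).2 := by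
    intro i j hij
    have h2 : φ (w, i) = φ (w, j) := Prod.ext (by rw [h1, h1]) hij
    exact (Prod.mk.inj (hφ h2)).2
  funext j
  by_cases hj : ∃ j', (φ (w, j')).2 = j
  · obtain ⟨j', rfl⟩ := hj
    rw [hτ.extend_apply]
    have h2 : ((w.1, (φ (w, j')).2) : W × Fin b) = φ (w, j') := Prod.ext (h1 (w, j')).symm rfl
    rw [h2, hφ.extend_apply]
  · rw [Function.extend_apply' _ _ _ hj, Function.extend_apply']
    rintro ⟨⟨w', j'⟩, h2⟩
    have h3 : w' = w := Subtype.ext (by rw [← h1 (w', j'), h2])
    subst h3
    exact hj ⟨j', by rw [h2]⟩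

/-- The block values of a glued point. -/
theorem yv_extend {b b' : ℕ} {S : Finset W} {φ : {w // w ∈ S} × Fin b' → W × Fin b}
    (hφ : Function.Injective φ) (h1 : ∀ p, (φ p).1 = p.1.1) (y : {w // w ∈ S} × Fin b' → Bool)
    (x : W × Fin b → Bool) :
    yv parity (Function.extend φ y x) =
      ext S (yv parity (Function.extend φ (fun _ => false) x)) (yv parity y) := by
  funext w
  by_cases hw : w ∈ S
  · rw [ext_mem hw]
    have hτ : Function.Injective fun j' => (φ (⟨w, hw⟩, j')).2 := by
      intro i j hij
      have h2 : φ (⟨w, hw⟩, i) = φ (⟨w, hw⟩, j) := Prod.ext (by rw [h1, h1]) hij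
      exact (Prod.mk.inj (hφ h2)).2
    unfold yv
    have e1 := extend_block hφ h1 y x ⟨w, hw⟩
    have e2 := extend_block hφ h1 (fun _ => false) x ⟨w, hw⟩
    simp only at e1 e2
    rw [e1, e2, parity_extend _ hτ]
  · rw [ext_notMem hw]
    unfold yv
    congr 1
    funext j
    have hj : ¬ ∃ p, φ p = (w, j) := by
      rintro ⟨p, hp⟩
      apply hw
      have := h1 p
      rw [hp] at this
      simp only at this
      rw [this]
      exact p.1.2
    rw [Function.extend_apply' _ _ _ hj, Function.extend_apply' _ _ _ hj]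

/-- **Correlation on a subcube of alive half blocks.** -/
theorem leaf_cube {b b' k : ℕ} {δ : ℝ} (H : (W → Bool) → ℝ) {S : Finset W}
    (φ : {w // w ∈ S} × Fin b' ↪ W × Fin b) (h1 : ∀ p, (φ p).1 = p.1.1)
    (x : W × Fin b → Bool) (C : ℕ → Cl (W × Fin b)) (I : Finset ℕ)
    (hk : ∀ i ∈ I, Narrow k (C i) (univ.map φ) x)
    (hc : ∀ c, Corr (fun y : {w // w ∈ S} × Fin b' → Bool => H (ext S c (yv parity y))) k δ) :
    |Expansion.val (fun z => H (yv parity z)) C (univ.map φ) x I| ≤
      δ * 2 ^ (univ.map φ).card := by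
  classical
  set A : Finset (W × Fin b) := univ.map φ with hA
  have hAm : ∀ v, v ∈ A ↔ ∃ p, φ p = v := by
    intro v
    simp [hA]
  set c := yv parity (Function.extend φ (fun _ => false) x) with hcdef
  set I' := I.filter fun i => ¬ ∃ v ∈ (C i).S, v ∉ A ∧ x v ≠ (C i).c v with hI'
  set C' : ℕ → Cl ({w // w ∈ S} × Fin b') := fun i =>
    ⟨univ.filter fun p => φ p ∈ (C i).S, fun p => (C i).c (φ p)⟩ with hC'
  have hcard : ∀ i ∈ I', (C' i).S.card ≤ k := by
    intro i hi
    obtain ⟨hi1, hi2⟩ := mem_filter.1 hi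
    rcases hk i hi1 with h2 | h2
    · exact absurd h2 hi2
    · refine le_trans ?_ h2
      rw [← card_map φ]
      refine card_le_card fun v hv => ?_
      obtain ⟨p, hp, rfl⟩ := mem_map.1 hv
      exact mem_inter.2 ⟨(mem_filter.1 hp).2, (hAm _).2 ⟨p, rfl⟩⟩
  have hval : Expansion.val (fun z => H (yv parity z)) C A x I =
      Expansion.val (fun y => H (ext S c (yv parity y))) C' univ (fun _ => false) I' := by
    unfold Expansion.val
    refine sum_bij' (fun z _ => fun p => z (φ p)) (fun y _ => Function.extend φ y x)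
      (fun z _ => ?_) (fun y _ => ?_) (fun z hz => ?_) (fun y _ => ?_) fun z hz => ?_
    · rw [mem_cube]
      exact fun v hv => absurd (mem_univ v) hv
    · rw [mem_cube]
      intro v hv
      exact Function.extend_apply' _ _ _ fun h => hv ((hAm v).2 h)
    · funext v
      by_cases hv : ∃ p, φ p = v
      · obtain ⟨p, rfl⟩ := hv
        rw [φ.injective.extend_apply]
      · rw [Function.extend_apply' _ _ _ hv]
        exact (mem_cube.1 hz v fun h => hv ((hAm v).1 h)).symm
    · funext p
      rw [φ.injective.extend_apply]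
    · have hz' : Function.extend φ (fun p => z (φ p)) x = z := by
        funext v
        by_cases hv : ∃ p, φ p = v
        · obtain ⟨p, rfl⟩ := hv
          rw [φ.injective.extend_apply]
        · rw [Function.extend_apply' _ _ _ hv]
          exact (mem_cube.1 hz v fun h => hv ((hAm v).1 h)).symm
      congr 1
      · conv_lhs => rw [← hz']
        change H (yv parity (Function.extend φ (fun p => z (φ p)) x)) =
          H (ext S c (yv parity fun p => z (φ p)))
        rw [yv_extend φ.injective h1]
      · rw [← prod_filter_mul_prod_filter_not I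
          (fun i => ¬ ∃ v ∈ (C i).S, v ∉ A ∧ x v ≠ (C i).c v) (fun i => ind (C i) z)]
        have e1 : ∏ i ∈ I.filter (fun i => ¬ ¬ ∃ v ∈ (C i).S, v ∉ A ∧ x v ≠ (C i).c v),
            ind (C i) z = 1 := by
          refine prod_eq_one fun i hi => ?_
          obtain ⟨v, hv, hvA, hvx⟩ := not_not.1 (mem_filter.1 hi).2
          rw [ind, if_neg]
          intro hall
          have := hall v hv
          rw [mem_cube.1 hz v hvA] at this
          exact hvx this
        rw [e1, mul_one]
        refine prod_congr rfl fun i hi => ?_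
        have hdead := (mem_filter.1 hi).2
        push Not at hdead
        unfold ind
        congr 1
        apply propext
        constructor
        · intro hall p hp
          exact hall (φ p) (mem_filter.1 hp).2
        · intro hall v hv
          by_cases hvA : v ∈ A
          · obtain ⟨p, rfl⟩ := (hAm v).1 hvA
            exact hall p (mem_filter.2 ⟨mem_univ _, hv⟩)
          · rw [mem_cube.1 hz v hvA]
            exact hdead v hv hvA
  obtain ⟨M, C'', hC'', hv⟩ := val_range C' I' hcard
  rw [hval, hv]
  have h2 := hc c M C'' hC''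
  have h3 : (univ.map φ).card = Fintype.card ({w // w ∈ S} × Fin b') := by
    rw [card_map, card_univ]
  rw [hA, h3]
  refine le_trans (le_of_eq ?_) h2
  unfold Expansion.val
  congr 1
  refine sum_congr ?_ fun _ _ => rfl
  ext z
  rw [mem_cube]
  exact ⟨fun _ => mem_univ _, fun _ v hv => absurd (mem_univ v) hv⟩

/-- **The leaves.** -/
theorem leaf {b' k m : ℕ} {δ : ℝ} (hb' : 0 < b') (H : (W → Bool) → ℝ)
    (C : ℕ → Cl (W × Fin (2 * b'))) (I : Finset ℕ)
    (hc : ∀ (S : Finset W) (c : W → Bool), Sᶜ.card ≤ m →
      Corr (fun y : {w // w ∈ S} × Fin b' → Bool => H (ext S c (yv parity y))) k δ)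
    (A : Finset (W × Fin (2 * b'))) (x : W × Fin (2 * b') → Bool) (hA : Aᶜ.card ≤ b' * m)
    (hk : ∀ i ∈ I, Narrow k (C i) A x) :
    |Expansion.val (fun z => H (yv parity z)) C A x I| ≤ δ * 2 ^ A.card := by
  classical
  set al : W → Finset (Fin (2 * b')) := fun w => univ.filter fun j => (w, j) ∈ A with hal
  set S : Finset W := univ.filter fun w => b' ≤ (al w).card with hS
  have hSc : Sᶜ.card ≤ m := by
    have e1 : ∑ w ∈ Sᶜ, b' ≤ ∑ w ∈ Sᶜ, (univ.filter fun j => (w, j) ∉ A).card := by
      refine sum_le_sum fun w hw => ?_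
      have e2 : (al w).card < b' := by
        by_contra hcon
        exact (mem_compl.1 hw) (mem_filter.2 ⟨mem_univ _, not_lt.1 hcon⟩)
      have e3 : (al w).card + (univ.filter fun j => (w, j) ∉ A).card = 2 * b' := by
        have := card_filter_add_card_filter_not (s := (univ : Finset (Fin (2 * b'))))
          (fun j => (w, j) ∈ A)
        rw [card_univ, Fintype.card_fin] at this
        exact this
      omega
    have e4 : ∑ w ∈ Sᶜ, (univ.filter fun j => (w, j) ∉ A).card ≤ Aᶜ.card := by
      rw [← card_sigma]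
      refine card_le_card_of_injOn (fun p => (p.1, p.2)) ?_ ?_
      · rintro ⟨w, j⟩ hp
        simp only [coe_sigma, Set.mem_sigma_iff, mem_coe, mem_filter, mem_univ, true_and] at hp
        exact mem_coe.2 (mem_compl.2 hp.2)
      · rintro ⟨w, j⟩ _ ⟨w', j'⟩ _ h
        simp only [Prod.mk.injEq] at h
        obtain ⟨rfl, rfl⟩ := h
        rfl
    rw [sum_const, smul_eq_mul] at e1
    have e5 : Sᶜ.card * b' ≤ m * b' := by
      rw [mul_comm m]
      exact e1.trans (e4.trans hA)
    exact Nat.le_of_mul_le_mul_right e5 hb'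
  have hτ : ∀ w : {w // w ∈ S}, ∃ τ : Fin b' → Fin (2 * b'), Function.Injective τ ∧
      ∀ j, (w.1, τ j) ∈ A := by
    intro w
    obtain ⟨T, hT, hTc⟩ := exists_subset_card_eq (mem_filter.1 w.2).2
    refine ⟨T.orderEmbOfFin hTc, (T.orderEmbOfFin hTc).injective, fun j => ?_⟩
    exact (mem_filter.1 (hT (T.orderEmbOfFin_mem hTc j))).2
  choose τ hτi hτA using hτ
  set φ : {w // w ∈ S} × Fin b' ↪ W × Fin (2 * b') := ⟨fun p => (p.1.1, τ p.1 p.2), by
    rintro ⟨w, j⟩ ⟨w', j'⟩ h
    simp only [Prod.mk.injEq] at h
    obtain ⟨h1, h2⟩ := h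
    have h3 : w = w' := Subtype.ext h1
    subst h3
    rw [hτi w h2]⟩ with hφ
  have hsub : univ.map φ ⊆ A := by
    intro v hv
    obtain ⟨p, -, rfl⟩ := mem_map.1 hv
    exact hτA p.1 p.2
  have h1 := sum_cubes_sub hsub x
    (fun z => H (yv parity z) * ∏ i ∈ I, ind (C i) z)
  have h2 := card_sub hsub x
  have h3 : ∀ x' ∈ univ.filter (fun x' : W × Fin (2 * b') → Bool =>
      (∀ v ∈ univ.map φ, x' v = false) ∧ ∀ v, v ∉ A → x' v = x v),
      |∑ z ∈ cube (univ.map φ) x', H (yv parity z) * ∏ i ∈ I, ind (C i) z| ≤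
        δ * 2 ^ (univ.map φ).card := by
    intro x' hx'
    have hx := (mem_filter.1 hx').2.2
    refine leaf_cube H φ (fun _ => rfl) x' C I (fun i hi => ?_) fun c => hc S c hSc
    rcases hk i hi with ⟨v, hv, hvA, hvx⟩ | h
    · exact Or.inl ⟨v, hv, fun h => hvA (hsub h), by rwa [hx v hvA]⟩
    · exact Or.inr ((card_le_card (inter_subset_inter_left hsub)).trans h)
  unfold Expansion.val
  rw [← h1]
  refine (abs_sum_le_sum_abs _ _).trans ((sum_le_sum h3).trans (le_of_eq ?_))
  rw [sum_const, nsmul_eq_mul, ← h2]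
  ring

end

end Vale.Agent.P336.H100
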