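import Vale.Agent.P336.H742.Decode

/-!
# P336: a decision tree which kills the wide clauses

At a restriction `(A, x)` with `U` wide clauses, query the variable which occurs most often in
them: one of the two answers satisfies a fraction `k / (2 |A|)` of the wide clauses.
-/

set_option linter.unusedSectionVars false

namespace Vale.Agent.P336.H100

open Finset Vale.Agent.P336.Expansion Vale.Agent.P336.H742

noncomputable section

variable {V : Type} [Fintype V] [DecidableEq V]

open Classical in
/-- The wide clauses: neither satisfied nor of alive width at most `k`. -/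
def Wd (k : ℕ) (C : ℕ → Cl V) (I : Finset ℕ) (A : Finset V) (x : V → Bool) : Finset ℕ :=
  I.filter fun i => ¬ Narrow k (C i) A x

theorem mem_Wd {k : ℕ} {C : ℕ → Cl V} {I : Finset ℕ} {A : Finset V} {x : V → Bool} {i : ℕ} :
    i ∈ Wd k C I A x ↔ i ∈ I ∧ ¬ Narrow k (C i) A x := by
  classical
  simp [Wd]

/-- Answers to a query keep narrow clauses narrow. -/
theorem narrow_query {k : ℕ} {C : Cl V} {A : Finset V} {x : V → Bool} {v : V} (hv : v ∈ A)
    (β : Bool) (h : Narrow k C A x) : Narrow k C (A.erase v) (Function.update x v β) := by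
  rcases h with ⟨w, hw, hwA, hx⟩ | h
  · left
    have hne : w ≠ v := fun h => hwA (h ▸ hv)
    exact ⟨w, hw, fun h => hwA (mem_of_mem_erase h), by rwa [Function.update_of_ne hne]⟩
  · right
    exact (card_le_card (inter_subset_inter_left (erase_subset _ _))).trans h

theorem Wd_query {k : ℕ} {C : ℕ → Cl V} {I : Finset ℕ} {A : Finset V} {x : V → Bool} {v : V}
    (hv : v ∈ A) (β : Bool) :
    Wd k C I (A.erase v) (Function.update x v β) ⊆ Wd k C I A x := by
  intro i hi
  rw [mem_Wd] at hi ⊢
  exact ⟨hi.1, fun h => hi.2 (narrow_query hv β h)⟩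

/-- The sum over a subcube is the sum over its two halves. -/
theorem val_split (h : (V → Bool) → ℝ) (C : ℕ → Cl V) {A : Finset V} (x : V → Bool)
    (I : Finset ℕ) {v : V} (hv : v ∈ A) :
    val h C A x I = val h C (A.erase v) (Function.update x v true) I +
      val h C (A.erase v) (Function.update x v false) I := by
  classical
  have key : ∀ β : Bool, cube (A.erase v) (Function.update x v β) =
      (cube A x).filter fun z => z v = β := by
    intro β
    ext z
    rw [mem_filter, mem_cube, mem_cube]
    constructor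
    · intro h
      refine ⟨fun w hw => ?_, ?_⟩
      · have hne : w ≠ v := fun h => hw (h ▸ hv)
        rw [h w fun h' => hw (mem_of_mem_erase h'), Function.update_of_ne hne]
      · rw [h v (notMem_erase v A), Function.update_self]
    · rintro ⟨h1, h2⟩ w hw
      by_cases hne : w = v
      · rw [hne, Function.update_self, h2]
      · rw [Function.update_of_ne hne]
        exact h1 w fun hA => hw (mem_erase.2 ⟨hne, hA⟩)
  unfold Expansion.val
  rw [key, key, ← sum_filter_add_sum_filter_not (cube A x) (fun z => z v = true)]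
  congr 2
  ext z
  simp

theorem abs_val_le {h : (V → Bool) → ℝ} (hh : ∀ z, |h z| ≤ 1) (C : ℕ → Cl V) (A : Finset V)
    (x : V → Bool) (I : Finset ℕ) : |val h C A x I| ≤ 2 ^ A.card := by
  refine (abs_sum_le_sum_abs _ _).trans ?_
  have h1 : ∀ z ∈ cube A x, |h z * ∏ i ∈ I, ind (C i) z| ≤ 1 := by
    intro z _
    rw [abs_mul]
    have h2 : |∏ i ∈ I, ind (C i) z| ≤ 1 := by
      rw [abs_prod]
      refine prod_le_one (fun i _ => abs_nonneg _) fun i _ => ?_
      rw [abs_of_nonneg (ind_nonneg _ _)]
      exact ind_le_one _ _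
    calc |h z| * |∏ i ∈ I, ind (C i) z| ≤ 1 * 1 :=
          mul_le_mul (hh z) h2 (abs_nonneg _) (by norm_num)
      _ = 1 := by norm_num
  refine (sum_le_sum h1).trans ?_
  rw [sum_const, nsmul_eq_mul, mul_one, card_cube]
  norm_cast

/-- Some answer to some query satisfies many of the wide clauses. -/
theorem exists_query {k : ℕ} {C : ℕ → Cl V} {I : Finset ℕ} {A : Finset V} {x : V → Bool}
    (hne : (Wd k C I A x).Nonempty) :
    ∃ v ∈ A, ∃ β : Bool, k * (Wd k C I A x).card +
      2 * A.card * (Wd k C I (A.erase v) (Function.update x v β)).card ≤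
        2 * A.card * (Wd k C I A x).card := by
  classical
  set U := Wd k C I A x with hU
  have hcard : ∀ i ∈ U, k < ((C i).S ∩ A).card := by
    intro i hi
    by_contra hcon
    exact (mem_Wd.1 hi).2 (Or.inr (not_lt.1 hcon))
  -- double counting
  have h1 : ∑ v ∈ A, (U.filter fun i => v ∈ (C i).S).card = ∑ i ∈ U, ((C i).S ∩ A).card := by
    have e1 : ∀ v ∈ A, (U.filter fun i => v ∈ (C i).S).card =
        ∑ i ∈ U, if v ∈ (C i).S then 1 else 0 := fun v _ => by
      rw [card_filter]
    have e2 : ∀ i ∈ U, ((C i).S ∩ A).card = ∑ v ∈ A, if v ∈ (C i).S then 1 else 0 := fun i _ => by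
      rw [← card_filter, inter_comm, ← filter_mem_eq_inter]
    rw [sum_congr rfl e1, sum_congr rfl e2, sum_comm]
  have h2 : k * U.card ≤ ∑ v ∈ A, (U.filter fun i => v ∈ (C i).S).card := by
    rw [h1, mul_comm, ← smul_eq_mul]
    exact card_nsmul_le_sum U _ k fun i hi => (hcard i hi).le
  have hAne : A.Nonempty := by
    obtain ⟨i, hi⟩ := hne
    have := hcard i hi
    have h3 : 0 < ((C i).S ∩ A).card := by omega
    obtain ⟨v, hv⟩ := card_pos.1 h3
    exact ⟨v, (mem_inter.1 hv).2⟩
  obtain ⟨v, hv, hmax⟩ := exists_max_image A (fun v => (U.filter fun i => v ∈ (C i).S).card) hAne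
  have h3 : k * U.card ≤ A.card * (U.filter fun i => v ∈ (C i).S).card := by
    refine h2.trans ?_
    rw [← smul_eq_mul]
    exact sum_le_card_nsmul A _ _ hmax
  -- the more frequent sign
  set T : Bool → Finset ℕ := fun γ => U.filter fun i => v ∈ (C i).S ∧ (C i).c v = γ with hT
  have h4 : (U.filter fun i => v ∈ (C i).S).card = (T true).card + (T false).card := by
    rw [hT, ← card_union_of_disjoint]
    · congr 1
      ext i
      simp only [mem_filter, mem_union]
      cases (C i).c v <;> simp
    · rw [disjoint_left]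
      intro i hi hi'
      have a1 := (mem_filter.1 hi).2.2
      have a2 := (mem_filter.1 hi').2.2
      rw [a1] at a2
      exact absurd a2 (by simp)
  obtain ⟨γ, hγ⟩ : ∃ γ, (U.filter fun i => v ∈ (C i).S).card ≤ 2 * (T γ).card := by
    rcases le_total (T true).card (T false).card with h | h
    · exact ⟨false, by omega⟩
    · exact ⟨true, by omega⟩
  refine ⟨v, hv, !γ, ?_⟩
  have h5 : Wd k C I (A.erase v) (Function.update x v (!γ)) ⊆ U \ T γ := by
    intro i hi
    rw [mem_sdiff]
    refine ⟨Wd_query hv _ hi, fun hT' => ?_⟩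
    obtain ⟨-, hS, hc⟩ := mem_filter.1 hT'
    refine (mem_Wd.1 hi).2 (Or.inl ⟨v, hS, notMem_erase v A, ?_⟩)
    rw [Function.update_self, hc]
    cases γ <;> simp
  have h6 := card_le_card h5
  rw [card_sdiff_of_subset (filter_subset _ _)] at h6
  have h7 : (T γ).card ≤ U.card := card_le_card (filter_subset _ _)
  have h8 : k * U.card ≤ 2 * A.card * (T γ).card := by
    calc k * U.card ≤ A.card * (U.filter fun i => v ∈ (C i).S).card := h3
      _ ≤ A.card * (2 * (T γ).card) := Nat.mul_le_mul_left _ hγ
      _ = 2 * A.card * (T γ).card := by ring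
  calc k * U.card + 2 * A.card * (Wd k C I (A.erase v) (Function.update x v (!γ))).card
      ≤ 2 * A.card * (T γ).card + 2 * A.card * (U.card - (T γ).card) := by gcongr
    _ = 2 * A.card * ((T γ).card + (U.card - (T γ).card)) := by ring
    _ = 2 * A.card * U.card := by rw [Nat.add_sub_cancel' h7]

/-- **The decision tree.** -/
theorem tree {h : (V → Bool) → ℝ} (hh : ∀ z, |h z| ≤ 1) (C : ℕ → Cl V) (I : Finset ℕ)
    {k s : ℕ} (hs : 2 * Fintype.card V ≤ k * s) {δ : ℝ} (hδ : 0 ≤ δ) (D : ℕ) :
    ∀ (A : Finset V) (x : V → Bool),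
      (∀ A' ⊆ A, ∀ x' : V → Bool, (A \ A').card ≤ D → Wd k C I A' x' = ∅ →
        |val h C A' x' I| ≤ δ * 2 ^ A'.card) →
      |val h C A x I| ≤ 2 ^ A.card * (δ + (3 / 4) ^ D * ((Wd k C I A x).card : ℝ) ^ s) := by
  induction D with
  | zero =>
    intro A x hyp
    by_cases hW : Wd k C I A x = ∅
    · have h1 := hyp A Subset.rfl x (by simp) hW
      refine h1.trans ?_
      rw [mul_comm]
      have : (0 : ℝ) ≤ (3 / 4) ^ 0 * ((Wd k C I A x).card : ℝ) ^ s := by positivity
      gcongr
      linarith
    · have h1 : (1 : ℝ) ≤ ((Wd k C I A x).card : ℝ) ^ s := by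
        refine one_le_pow₀ ?_
        exact_mod_cast card_pos.2 (nonempty_iff_ne_empty.2 hW)
      refine (abs_val_le hh C A x I).trans ?_
      have h2 : (0 : ℝ) < 2 ^ A.card := by positivity
      rw [pow_zero, one_mul]
      nlinarith
  | succ D ih =>
    intro A x hyp
    by_cases hW : Wd k C I A x = ∅
    · have h1 := hyp A Subset.rfl x (by simp) hW
      refine h1.trans ?_
      rw [mul_comm]
      have : (0 : ℝ) ≤ (3 / 4) ^ (D + 1) * ((Wd k C I A x).card : ℝ) ^ s := by positivity
      gcongr
      linarith
    · have hne := nonempty_iff_ne_empty.2 hW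
      obtain ⟨v, hv, β, hβ⟩ := exists_query hne
      have hA : 0 < A.card := card_pos.2 ⟨v, hv⟩
      have hAV : A.card ≤ Fintype.card V := card_le_univ A
      have hih : ∀ γ : Bool, |val h C (A.erase v) (Function.update x v γ) I| ≤
          2 ^ (A.erase v).card * (δ + (3 / 4) ^ D *
            ((Wd k C I (A.erase v) (Function.update x v γ)).card : ℝ) ^ s) := by
        intro γ
        refine ih (A.erase v) _ fun A' hA' x' hc hW' => ?_
        refine hyp A' (hA'.trans (erase_subset _ _)) x' ?_ hW'
        have h1 : A \ A' ⊆ insert v ((A.erase v) \ A') := by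
          intro w hw
          rw [mem_sdiff] at hw
          rw [mem_insert, mem_sdiff, mem_erase]
          by_cases hwv : w = v
          · exact Or.inl hwv
          · exact Or.inr ⟨⟨hwv, hw.1⟩, hw.2⟩
        exact (card_le_card h1).trans ((card_insert_le _ _).trans (by omega))
      set U : ℝ := ((Wd k C I A x).card : ℝ) with hU
      have hU0 : 0 ≤ U := Nat.cast_nonneg _
      set u1 : ℝ := ((Wd k C I (A.erase v) (Function.update x v β)).card : ℝ) with hu1
      set u2 : ℝ := ((Wd k C I (A.erase v) (Function.update x v (!β))).card : ℝ) with hu2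
      have hu2U : u2 ≤ U := by
        rw [hu2, hU]
        exact_mod_cast card_le_card (Wd_query hv _)
      have hu2s : u2 ^ s ≤ U ^ s := pow_le_pow_left₀ (Nat.cast_nonneg _) hu2U s
      have hu1s : u1 ^ s ≤ U ^ s / 2 := by
        have ha : (0 : ℝ) < 2 * A.card := by positivity
        have e1 : (k : ℝ) * U + 2 * A.card * u1 ≤ 2 * A.card * U := by
          rw [hU, hu1]
          exact_mod_cast hβ
        have e2 : u1 ≤ U * Real.exp (-(k / (2 * A.card))) := by
          have e3 : u1 ≤ U * (1 - k / (2 * A.card)) := by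
            have e4 : U * (1 - k / (2 * A.card)) = (2 * A.card * U - k * U) / (2 * A.card) := by
              field_simp
            rw [e4, le_div_iff₀ ha]
            linarith
          refine e3.trans (mul_le_mul_of_nonneg_left ?_ hU0)
          have := Real.add_one_le_exp (-((k : ℝ) / (2 * A.card)))
          linarith
        have e5 : u1 ^ s ≤ (U * Real.exp (-(k / (2 * A.card)))) ^ s :=
          pow_le_pow_left₀ (Nat.cast_nonneg _) e2 s
        refine e5.trans ?_
        rw [mul_pow, ← Real.exp_nat_mul, show U ^ s / 2 = U ^ s * (1 / 2) by ring]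
        refine mul_le_mul_of_nonneg_left ?_ (pow_nonneg hU0 s)
        have e6 : (s : ℝ) * -(k / (2 * A.card)) ≤ -1 := by
          have e7 : (2 * A.card : ℝ) ≤ k * s := by
            have : 2 * A.card ≤ k * s := (Nat.mul_le_mul_left 2 hAV).trans hs
            exact_mod_cast this
          have e8 : (1 : ℝ) ≤ k * s / (2 * A.card) := by
            rw [le_div_iff₀ ha]
            linarith
          have e9 : (s : ℝ) * -(k / (2 * A.card)) = -(k * s / (2 * A.card)) := by ring
          rw [e9]
          linarith
        refine (Real.exp_le_exp.2 e6).trans ?_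
        rw [Real.exp_neg, ← one_div]
        exact one_div_le_one_div_of_le (by norm_num) (by
          have := Real.add_one_le_exp (1 : ℝ)
          linarith)
      have hsum : |val h C A x I| ≤ 2 ^ (A.erase v).card * (δ + (3 / 4) ^ D * u1 ^ s) +
          2 ^ (A.erase v).card * (δ + (3 / 4) ^ D * u2 ^ s) := by
        rw [val_split h C x I hv]
        refine (abs_add_le _ _).trans ?_
        have a1 := hih β
        have a2 := hih (!β)
        cases β
        · simp only [Bool.not_false] at a2 hu2
          rw [add_comm]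
          exact add_le_add a1 a2
        · simp only [Bool.not_true] at a2 hu2
          exact add_le_add a1 a2
      refine hsum.trans ?_
      have hc : A.card = (A.erase v).card + 1 := (card_erase_add_one hv).symm
      rw [hc, pow_succ (2 : ℝ), pow_succ (3 / 4 : ℝ)]
      have hp : (0 : ℝ) < (3 / 4) ^ D := by positivity
      have hq : (0 : ℝ) < 2 ^ (A.erase v).card := by positivity
      have e10 : (3 / 4 : ℝ) ^ D * (u1 ^ s + u2 ^ s) ≤ (3 / 4) ^ D * (3 / 2 * U ^ s) := by
        refine mul_le_mul_of_nonneg_left ?_ hp.le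
        linarith
      calc 2 ^ (A.erase v).card * (δ + (3 / 4) ^ D * u1 ^ s) +
          2 ^ (A.erase v).card * (δ + (3 / 4) ^ D * u2 ^ s)
          = 2 ^ (A.erase v).card * (2 * δ + (3 / 4) ^ D * (u1 ^ s + u2 ^ s)) := by ring
        _ ≤ 2 ^ (A.erase v).card * (2 * δ + (3 / 4) ^ D * (3 / 2 * U ^ s)) := by gcongr
        _ = 2 ^ (A.erase v).card * 2 * (δ + (3 / 4) ^ D * (3 / 4) * U ^ s) := by ring

end

end Vale.Agent.P336.H100
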